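import Crest.Agent.N337.L4.Shearer
import Crest.Agent.N337.Rep.Path
import Crest.Agent.N337.S27.LY0

-- ▼ part N337/L4/Arc
section

/-!
# Row 337, block L4 (helper96): the explorer of the arc from a root

`arc u ξ i` is the tip after `i` steps, `Al ok u t ξ` the explored points, `X ok u t ξ` the revealed
coins (all coins touching the explored points).  Given them the law of the coins is `Pw (pin ..)`.
With the speed limit `spd` the multiplicity of every cell is bounded deterministically.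
-/

set_option autoImplicit false
set_option linter.unusedSectionVars false

namespace Crest.Agent.N337.Arc

open Finset Equiv Crest.Agent.N337.Rep

variable {Λ : Type} [Fintype Λ] [DecidableEq Λ] {T : ℕ} [NeZero T]

/-- the laws of the coins. -/
def pb (p : Fin T → ℝ) : ∀ _ : Fin T, Bool → ℝ := fun s b => wb (p s) b

lemma w_pb (p : Fin T → ℝ) (ξ : Fin T → Bool) : PH.w (pb p) ξ = Pw p ξ := rfl

lemma pr_pb {p : Fin T → ℝ} (hp : ∀ s, 0 ≤ p s ∧ p s ≤ 1) : PH.Pr (pb p) :=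
  ⟨fun s b => by unfold pb wb; split_ifs; exacts [(hp s).1, sub_nonneg.2 (hp s).2],
    fun s => by simp [pb, wb]⟩

/-- the coins of `A` are pinned to their values in `ξ`. -/
def pin (p : Fin T → ℝ) (A : Finset (Fin T)) (ξ : Fin T → Bool) : Fin T → ℝ :=
  fun s => if s ∈ A then (if ξ s = true then 1 else 0) else p s

lemma pin_mem {p : Fin T → ℝ} (hp : ∀ s, 0 ≤ p s ∧ p s ≤ 1) (A : Finset (Fin T))
    (ξ : Fin T → Bool) (s : Fin T) : 0 ≤ pin p A ξ s ∧ pin p A ξ s ≤ 1 := by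
  unfold pin; split_ifs
  exacts [⟨zero_le_one, le_rfl⟩, ⟨le_rfl, zero_le_one⟩, hp s]

lemma pin_congr (p : Fin T → ℝ) {A : Finset (Fin T)} {ξ ξ' : Fin T → Bool}
    (h : ∀ s ∈ A, ξ' s = ξ s) : pin p A ξ' = pin p A ξ := by
  funext s; unfold pin; by_cases hs : s ∈ A
  · rw [if_pos hs, if_pos hs, h s hs]
  · rw [if_neg hs, if_neg hs]

lemma Pw_pin_supp {p : Fin T → ℝ} {A : Finset (Fin T)} {ξ ξ' : Fin T → Bool}
    (h : Pw (pin p A ξ) ξ' ≠ 0) : ∀ s ∈ A, ξ' s = ξ s := by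
  intro s hs
  have := prod_ne_zero_iff.1 h s (mem_univ s)
  simp only [pin, hs, if_true, wb] at this
  cases h1 : ξ s <;> cases h2 : ξ' s <;> simp_all

/-- the conditional law given the coins of `A`. -/
theorem C_pin {p : Fin T → ℝ} (A : Finset (Fin T)) (f : (Fin T → Bool) → ℝ) (ξ : Fin T → Bool) :
    PH.C (pb p) A f ξ = ∑ ξ', Pw (pin p A ξ) ξ' * f ξ' := by
  have e : ∀ η : Fin T → Bool, f (PH.pw A ξ η) =
      ∑ ξ', (∏ s, if ξ' s = PH.pw A ξ η s then (1 : ℝ) else 0) * f ξ' := by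
    intro η
    rw [sum_eq_single (PH.pw A ξ η)]
    · simp
    · intro ξ' _ hne
      obtain ⟨s, hs⟩ := Function.ne_iff.1 hne
      rw [prod_eq_zero (mem_univ s) (if_neg hs), zero_mul]
    · simp
  simp only [PH.C, PH.P, e, mul_sum]
  rw [sum_comm]
  refine sum_congr rfl fun ξ' _ => ?_
  simp only [← mul_assoc]
  rw [← sum_mul]
  congr 1
  simp only [PH.w, ← prod_mul_distrib]
  have h := Finset.prod_univ_sum (fun _ : Fin T => (univ : Finset Bool)) fun s b =>
    pb p s b * if ξ' s = (if s ∈ A then ξ s else b) then (1 : ℝ) else 0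
  rw [Fintype.piFinset_univ] at h
  refine h.symm.trans (prod_congr rfl fun s _ => ?_)
  by_cases hs : s ∈ A <;> cases h1 : ξ s <;> cases h2 : ξ' s <;> simp [pb, wb, pin, hs, h1]

lemma P_pin {p : Fin T → ℝ} (R : (Fin T → Bool) → Finset (Fin T)) (f : (Fin T → Bool) → ℝ)
    (ξ : Fin T → Bool) : PH.P (pb p) R f ξ = ∑ ξ', Pw (pin p (R ξ) ξ) ξ' * f ξ' :=
  C_pin (R ξ) f ξ

/-- kill on a set of points. -/
def kill (b : Fin T × Λ → ℝ) (O : Finset (Fin T × Λ)) : Fin T × Λ → ℝ :=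
  fun v => if v ∈ O then 0 else b v

variable (ex ey : Fin T → Λ)

/-- the coins touching a set of points. -/
def tch (O : Finset (Fin T × Λ)) : Finset (Fin T) :=
  univ.filter fun s => (s, ex s) ∈ O ∨ (s, ey s) ∈ O

lemma mem_tch {O : Finset (Fin T × Λ)} {s : Fin T} :
    s ∈ tch ex ey O ↔ (s, ex s) ∈ O ∨ (s, ey s) ∈ O := by simp [tch]

lemma tch_mono {O O' : Finset (Fin T × Λ)} (h : O ⊆ O') : tch ex ey O ⊆ tch ex ey O' :=
  fun _ hs => (mem_tch ex ey).2 (((mem_tch ex ey).1 hs).imp (@h _) (@h _))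

lemma tch_union (O O' : Finset (Fin T × Λ)) :
    tch ex ey (O ∪ O') = tch ex ey O ∪ tch ex ey O' := by
  ext s; simp only [mem_tch, mem_union]; tauto

/-- the step of a point only reads a coin touching it. -/
lemma Sg_congr {O : Finset (Fin T × Λ)} {ξ ξ' : Fin T → Bool}
    (h : ∀ s ∈ tch ex ey O, ξ' s = ξ s) {v : Fin T × Λ} (hv : v ∈ O) :
    Sg ex ey ξ' v = Sg ex ey ξ v := by
  obtain ⟨s, x⟩ := v
  rw [Sg_apply, Sg_apply]
  by_cases hs : s ∈ tch ex ey O
  · rw [h s hs]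
  · rw [mem_tch, not_or] at hs
    have h1 : x ≠ ex s := fun e => hs.1 (e ▸ hv)
    have h2 : x ≠ ey s := fun e => hs.2 (e ▸ hv)
    have : ∀ b, sg (ex s) (ey s) b x = x := fun b => by
      cases b <;> simp [sg, swap_apply_of_ne_of_ne h1 h2]
    rw [this, this]

/-- the tip after `i` steps. -/
def arc (u : Fin T × Λ) (ξ : Fin T → Bool) (i : ℕ) : Fin T × Λ := (Sg ex ey ξ)^[i] u

lemma arc_zero (u : Fin T × Λ) (ξ : Fin T → Bool) : arc ex ey u ξ 0 = u := rfl

lemma arc_succ (u : Fin T × Λ) (ξ : Fin T → Bool) (i : ℕ) :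
    arc ex ey u ξ (i + 1) = Sg ex ey ξ (arc ex ey u ξ i) := Function.iterate_succ_apply' _ _ _

lemma arc_add (u : Fin T × Λ) (ξ : Fin T → Bool) (i j : ℕ) :
    arc ex ey u ξ (i + j) = arc ex ey (arc ex ey u ξ i) ξ j := by
  rw [arc, add_comm, Function.iterate_add_apply]; rfl

lemma arc_time (u : Fin T × Λ) (ξ : Fin T → Bool) (i : ℕ) :
    (arc ex ey u ξ i).1.val = (u.1.val + i) % T := by
  induction i with
  | zero => simp [arc_zero, Nat.mod_eq_of_lt u.1.2]
  | succ i ih =>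
    rw [arc_succ]
    change ((arc ex ey u ξ i).1 + 1).val = _
    rw [Fin.val_add, ih, Fin.val_one', ← Nat.add_mod, add_assoc]

/-- a stop rule reads the path up to the present step. -/
def Rule (ok : (ℕ → Fin T × Λ) → ℕ → Prop) : Prop :=
  ∀ a a' i, (∀ j ≤ i, a' j = a j) → ok a i → ok a' i

variable (ok : (ℕ → Fin T × Λ) → ℕ → Prop) (u : Fin T × Λ)

/-- the explorer is allowed to make step `i`. -/
def run (ξ : Fin T → Bool) (i : ℕ) : Prop := ∀ j ≤ i, ok (arc ex ey u ξ) j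

open Classical in
/-- the explored points. -/
noncomputable def Al (t : ℕ) (ξ : Fin T → Bool) : Finset (Fin T × Λ) :=
  ((range t).filter (run ex ey ok u ξ)).image (arc ex ey u ξ)

/-- the revealed coins. -/
noncomputable def X (t : ℕ) (ξ : Fin T → Bool) : Finset (Fin T) := tch ex ey (Al ex ey ok u t ξ)

variable {ex ey ok u}

lemma mem_Al {t : ℕ} {ξ : Fin T → Bool} {v : Fin T × Λ} :
    v ∈ Al ex ey ok u t ξ ↔ ∃ i < t, run ex ey ok u ξ i ∧ arc ex ey u ξ i = v := by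
  simp only [Al, mem_image, mem_filter, mem_range, and_assoc]

lemma Al_zero (ξ : Fin T → Bool) : Al ex ey ok u 0 ξ = ∅ := by simp [Al]

lemma X_zero (ξ : Fin T → Bool) : X ex ey ok u 0 ξ = ∅ := by simp [X, Al_zero, tch]

lemma Al_mono {s t : ℕ} (h : s ≤ t) (ξ : Fin T → Bool) :
    Al ex ey ok u s ξ ⊆ Al ex ey ok u t ξ := fun _ hv => by
  obtain ⟨i, hi, h1⟩ := mem_Al.1 hv
  exact mem_Al.2 ⟨i, hi.trans_le h, h1⟩

/-- the path is determined by the revealed coins as long as the explorer runs. -/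
theorem agree {t : ℕ} {ξ ξ' : Fin T → Bool} (h : ∀ s ∈ X ex ey ok u t ξ, ξ' s = ξ s) :
    ∀ i ≤ t, (∀ j < i, ok (arc ex ey u ξ) j) → arc ex ey u ξ' i = arc ex ey u ξ i := by
  intro i
  induction i with
  | zero => intros; rfl
  | succ i ih =>
    intro hi hr
    rw [arc_succ, arc_succ, ih (by omega) fun j hj => hr j (by omega)]
    exact Sg_congr ex ey h (mem_Al.2 ⟨i, hi, fun j hj => hr j (by omega), rfl⟩)

theorem run_iff (hr : Rule ok) {t : ℕ} {ξ ξ' : Fin T → Bool}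
    (h : ∀ s ∈ X ex ey ok u t ξ, ξ' s = ξ s) {i : ℕ} (hi : i ≤ t) :
    run ex ey ok u ξ' i ↔ run ex ey ok u ξ i := by
  constructor
  · intro h' j
    induction j using Nat.strong_induction_on with
    | _ j ih =>
      intro hj
      refine hr _ _ j (fun l hl => (agree h l (by omega) fun m hm => ?_).symm) (h' j hj)
      exact ih m (by omega) (by omega)
  · intro h' j hj
    exact hr _ _ j (fun l hl => agree h l (by omega) fun m hm => h' m (by omega)) (h' j hj)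

theorem Al_pred (hr : Rule ok) {t : ℕ} {ξ ξ' : Fin T → Bool}
    (h : ∀ s ∈ X ex ey ok u t ξ, ξ' s = ξ s) :
    Al ex ey ok u (t + 1) ξ' = Al ex ey ok u (t + 1) ξ := by
  ext v
  simp only [mem_Al]
  refine exists_congr fun i => and_congr_right fun hi => ?_
  rw [run_iff hr h (by omega)]
  refine and_congr_right fun h1 => ?_
  rw [agree h i (by omega) fun j hj => h1 j hj.le]

theorem Al_stop (hr : Rule ok) {t : ℕ} {ξ ξ' : Fin T → Bool}
    (h : ∀ s ∈ X ex ey ok u t ξ, ξ' s = ξ s) : Al ex ey ok u t ξ' = Al ex ey ok u t ξ := by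
  cases t with
  | zero => rw [Al_zero, Al_zero]
  | succ t => exact Al_pred hr fun s hs => h s (tch_mono ex ey (Al_mono t.le_succ ξ) hs)

/-- the arc is an explorer. -/
theorem expl (hr : Rule ok) : PH.Expl (E := fun _ : Fin T => Bool) (X ex ey ok u) :=
  ⟨fun _ _ => by rw [X_zero, X_zero], fun t ξ => tch_mono ex ey (Al_mono t.le_succ ξ),
    fun _ _ _ h => by rw [X, X, Al_pred hr h]⟩

/-- a new coin touches the present tip. -/
lemma new_coin {t : ℕ} {ξ : Fin T → Bool} {s : Fin T} (h1 : s ∈ X ex ey ok u (t + 1) ξ)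
    (h2 : s ∉ X ex ey ok u t ξ) : run ex ey ok u ξ t ∧
      (arc ex ey u ξ t = (s, ex s) ∨ arc ex ey u ξ t = (s, ey s)) := by
  have key : ∀ v ∈ Al ex ey ok u (t + 1) ξ, v ∉ Al ex ey ok u t ξ →
      run ex ey ok u ξ t ∧ arc ex ey u ξ t = v := fun v hv hv' => by
    obtain ⟨i, hi, hr, e⟩ := mem_Al.1 hv
    rcases Nat.lt_succ_iff_lt_or_eq.1 hi with h | rfl
    · exact absurd (mem_Al.2 ⟨i, h, hr, e⟩) hv'
    · exact ⟨hr, e⟩
  rw [X, mem_tch] at h1 h2
  rw [not_or] at h2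
  rcases h1 with h | h
  · exact ⟨(key _ h h2.1).1, Or.inl (key _ h h2.1).2⟩
  · exact ⟨(key _ h h2.2).1, Or.inr (key _ h h2.2).2⟩


section speed

/-- the speed limit: the tip is near its position at the start `ws s` of the window. -/
def spd (ws : Fin T → Fin T) (near : Λ → Λ → Prop) (a : ℕ → Fin T × Λ) (i : ℕ) : Prop :=
  near (a (i - ((a i).1.val - (ws (a i).1).val))).2 (a i).2

lemma rule_spd (ws : Fin T → Fin T) (near : Λ → Λ → Prop) : Rule (spd ws near) := by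
  intro a a' i h
  simp only [spd, h i le_rfl, h _ (Nat.sub_le _ _), imp_self]

lemma Rule.and {ok ok' : (ℕ → Fin T × Λ) → ℕ → Prop} (h : Rule ok) (h' : Rule ok') :
    Rule fun a i => ok a i ∧ ok' a i :=
  fun a a' i e k => ⟨h a a' i e k.1, h' a a' i e k.2⟩

variable {ws : Fin T → Fin T} {near : Λ → Λ → Prop}

/-- a revealed coin comes from a window start near one of its ends. -/
lemma anchor (hws : ∀ s, ws s ≤ s) (hok : ∀ a i, ok a i → spd ws near a i) {K : ℕ} {r : Λ}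
    {ξ : Fin T → Bool} {s : Fin T} (hs : s ∈ X ex ey ok (0, r) (K * T) ξ) :
    ∃ k < K, ∃ x0, arc ex ey (0, r) ξ (k * T + (ws s).val) = (ws s, x0) ∧
      (near x0 (ex s) ∨ near x0 (ey s)) := by
  have key : ∀ x, (s, x) ∈ Al ex ey ok (0, r) (K * T) ξ →
      ∃ k < K, ∃ x0, arc ex ey (0, r) ξ (k * T + (ws s).val) = (ws s, x0) ∧ near x0 x := by
    intro x hx
    obtain ⟨i, hi, hr, e⟩ := mem_Al.1 hx
    have h1 := hok _ _ (hr i le_rfl)
    have h2 := arc_time ex ey (0, r) ξ i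
    simp only [spd, e] at h1
    simp only [e, Fin.val_zero, zero_add] at h2
    have h3 : (ws s).val ≤ s.val := hws s
    have h4 := Nat.div_add_mod i T
    have h5 : i - (s.val - (ws s).val) = i / T * T + (ws s).val := by
      rw [mul_comm]; omega
    rw [h5] at h1
    refine ⟨i / T, Nat.div_lt_of_lt_mul (by rwa [mul_comm]), _, Prod.ext (Fin.ext ?_) rfl, h1⟩
    rw [arc_time]
    simp [Nat.mod_eq_of_lt (ws s).2]
  rcases (mem_tch ex ey).1 hs with h | h
  · obtain ⟨k, hk, x0, h1, h2⟩ := key _ h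
    exact ⟨k, hk, x0, h1, Or.inl h2⟩
  · obtain ⟨k, hk, x0, h1, h2⟩ := key _ h
    exact ⟨k, hk, x0, h1, Or.inr h2⟩

variable {κ : Type} [DecidableEq κ] {cl : Fin T → κ}

/-- **multiplicity**: a cell is seen by at most `K * m0` roots. -/
theorem mult_le (hws : ∀ s, ws s ≤ s) {oks : Λ → (ℕ → Fin T × Λ) → ℕ → Prop}
    (hok : ∀ r a i, oks r a i → spd ws near a i) {m0 : ℕ}
    (N : κ → Finset (Fin T × Λ)) (hN : ∀ c, (N c).card ≤ m0)
    (hm : ∀ s x0, near x0 (ex s) ∨ near x0 (ey s) → (ws s, x0) ∈ N (cl s)) (K : ℕ)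
    (ξ : Fin T → Bool) (c : κ) :
    (univ.filter fun r : Λ => c ∈ (X ex ey (oks r) (0, r) (K * T) ξ).image cl).card ≤ K * m0 := by
  have sub : (univ.filter fun r : Λ => c ∈ (X ex ey (oks r) (0, r) (K * T) ξ).image cl) ⊆
      (range K ×ˢ N c).image fun z => ((Sg ex ey ξ).symm^[z.1 * T + z.2.1.val] z.2).2 := by
    intro r hr
    obtain ⟨s, hs, rfl⟩ := mem_image.1 (mem_filter.1 hr).2
    obtain ⟨k, hk, x0, h1, h2⟩ := anchor hws (hok r) hs
    refine mem_image.2 ⟨(k, (ws s, x0)), mem_product.2 ⟨mem_range.2 hk, hm s x0 h2⟩, ?_⟩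
    simp only
    rw [← h1, arc, Function.LeftInverse.iterate (Sg ex ey ξ).symm_apply_apply _ _]
  refine (card_le_card sub).trans (card_image_le.trans ?_)
  rw [card_product, card_range]
  exact Nat.mul_le_mul_left _ (hN c)

/-- **size**: an explorer sees at most `K * B * n0` cells. -/
theorem size_le (hws : ∀ s, ws s ≤ s) (hok : ∀ a i, ok a i → spd ws near a i) {B n0 : ℕ}
    (hB : (univ.image ws).card ≤ B) (M : Fin T × Λ → Finset κ) (hM : ∀ v, (M v).card ≤ n0)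
    (hm : ∀ s x0, near x0 (ex s) ∨ near x0 (ey s) → cl s ∈ M (ws s, x0)) (K : ℕ) (r : Λ)
    (ξ : Fin T → Bool) : ((X ex ey ok (0, r) (K * T) ξ).image cl).card ≤ K * B * n0 := by
  have sub : (X ex ey ok (0, r) (K * T) ξ).image cl ⊆ (range K ×ˢ univ.image ws).biUnion
      fun z => M (arc ex ey (0, r) ξ (z.1 * T + z.2.val)) := by
    intro c hc
    obtain ⟨s, hs, rfl⟩ := mem_image.1 hc
    obtain ⟨k, hk, x0, h1, h2⟩ := anchor hws hok hs
    refine mem_biUnion.2 ⟨(k, ws s), mem_product.2 ⟨mem_range.2 hk, mem_image_of_mem _ (mem_univ s)⟩,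
      ?_⟩
    simp only [h1]
    exact hm s x0 h2
  refine (card_le_card sub).trans ((card_biUnion_le_card_mul _ _ n0 fun z _ => hM _).trans ?_)
  rw [card_product, card_range]
  gcongr

end speed

end Crest.Agent.N337.Arc
end

-- ▼ part N337/L4/Ret

/-!
# Row 337, block L4 (helper96): hitting probabilities from Green functions

`al` is the law of the coins and of the alive loops (a loop is alive with probability `∏ b`).
`ret`: the probability that the arc from `u` hits the support of `t` is at most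
`L * sup_{good children} Gf + (mass of the bad children)`.
-/

set_option autoImplicit false
set_option linter.unusedSectionVars false

namespace Crest.Agent.N337.Arc

open Finset Equiv Matrix Crest.Agent.N337.Rep Crest.Agent.N337.LY0

section perm
variable {S : Type} [Fintype S] [DecidableEq S]

/-- weight of one lap of the arc from `u`. -/
noncomputable def aw (π : Perm S) (b t : S → ℝ) (u : S) : ℝ :=
  ∑ j ∈ range (per π u), t (π^[j] u) * ∏ i ∈ range j, b (π^[i] u)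

/-- the points of a Boolean field. -/
def on (D : S → Bool) : Finset S := univ.filter fun v => D v = true

lemma mem_on {D : S → Bool} {v : S} : v ∈ on D ↔ D v = true := by simp [on]

lemma aw_eq (π : Perm S) (b t : S → ℝ) (hN : (mat π (fun _ => 1) b).det ≠ 0) (u : S) :
    aw π b t u = (1 - pr π b (o π u)) * (t ⬝ᵥ (mat π (fun _ => 1) b)⁻¹ *ᵥ Pi.single u 1) := by
  rw [← arc_eq π t b hN u, Pc, Pk_up]; simp [aw]

lemma aw_ge (π : Perm S) {b t : S → ℝ} (hb : ∀ v, 0 ≤ b v ∧ b v ≤ 1) (ht : ∀ v, 0 ≤ t v) (u : S)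
    (j : ℕ) : t (π^[j] u) * ∏ i ∈ range j, b (π^[i] u) ≤ aw π b t u := by
  have h1 : π^[j % per π u] u = π^[j] u := Function.iterate_mod_minimalPeriod_eq
  refine le_trans ?_ (single_le_sum (f := fun j => t (π^[j] u) * ∏ i ∈ range j, b (π^[i] u))
    (fun j _ => mul_nonneg (ht _) (prod_nonneg fun i _ => (hb _).1))
    (mem_range.2 (Nat.mod_lt j (per_pos π u))))
  rw [h1]
  refine mul_le_mul_of_nonneg_left ?_ (ht _)
  exact prod_le_prod_of_subset_of_le_one (range_mono (Nat.mod_le _ _))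
    (fun i _ => (hb _).1) fun i _ _ => (hb _).2

lemma inv_of_fwd {π : Perm S} {D : S → Bool} (h : ∀ v, D v = true → D (π v) = true) (v : S) :
    D (π v) = D v := by
  have key : ∀ k w, D w = true → D (π^[k] w) = true := by
    intro k w hw
    induction k with
    | zero => exact hw
    | succ k ih => rw [Function.iterate_succ_apply']; exact h _ ih
  cases hv : D v
  · by_contra hc
    obtain ⟨k, hk⟩ : ∃ k, per π v = k + 1 := ⟨_, (Nat.succ_pred_eq_of_pos (per_pos π v)).symm⟩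
    have := key k (π v) (by simpa using hc)
    rw [← Function.iterate_succ_apply, Nat.succ_eq_add_one, ← hk, it_per, hv] at this
    exact Bool.noConfusion this
  · exact h v hv

lemma inv_it {π : Perm S} {D : S → Bool} (h : ∀ v, D (π v) = D v) (k : ℕ) (v : S) :
    D (π^[k] v) = D v := by
  induction k with
  | zero => rfl
  | succ k ih => rw [Function.iterate_succ_apply', h, ih]

lemma green_step (K : Matrix S S ℝ) (b : S → ℝ) (hN : (1 - K * diagonal b).det ≠ 0) (u : S) :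
    (1 - K * diagonal b)⁻¹ *ᵥ Pi.single u 1 =
      Pi.single u 1 + (1 - K * diagonal b)⁻¹ *ᵥ (K *ᵥ (b u • Pi.single u 1)) := by
  have e : K *ᵥ (b u • Pi.single u (1 : ℝ)) =
      Pi.single u 1 - (1 - K * diagonal b) *ᵥ Pi.single u 1 := by
    rw [sub_mulVec, one_mulVec, sub_sub_cancel, ← mulVec_mulVec]
    congr 1
    funext v
    by_cases h : v = u <;> simp [mulVec_diagonal, h]
  rw [e, mulVec_sub, mulVec_mulVec, nonsing_inv_mul _ hN.isUnit, one_mulVec]; abel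

end perm

variable {Λ : Type} [Fintype Λ] [DecidableEq Λ] {T : ℕ} [NeZero T] (ex ey : Fin T → Λ)

/-- the Green function of the averaged walk with source `u`, tested against `t`. -/
noncomputable def Gf (p : Fin T → ℝ) (b t : Fin T × Λ → ℝ) (u : Fin T × Λ) : ℝ :=
  t ⬝ᵥ (1 - Kb ex ey p * diagonal b)⁻¹ *ᵥ Pi.single u 1

/-- admissible killing fields. -/
structure Fld (b : Fin T × Λ → ℝ) : Prop where
  mem : ∀ v, 0 ≤ b v ∧ b v ≤ 1
  lt : ∀ x, b (0, x) < 1

lemma Fld.kill {b : Fin T × Λ → ℝ} (h : Fld b) (O : Finset (Fin T × Λ)) : Fld (kill b O) :=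
  ⟨fun v => by unfold Arc.kill; split_ifs; exacts [⟨le_rfl, zero_le_one⟩, h.mem v],
    fun x => by unfold Arc.kill; split_ifs; exacts [zero_lt_one, h.lt x]⟩

lemma Fld.pr_lt {b : Fin T × Λ → ℝ} (h : Fld b) (ξ : Fin T → Bool) (g : Orb (Sg ex ey ξ)) :
    pr (Sg ex ey ξ) b g < 1 := by
  obtain ⟨x, hx⟩ := exists_time ex ey ξ g 0
  rw [pr, ← mul_prod_erase _ _ (show (0, x) ∈ univ.filter fun v => o (Sg ex ey ξ) v = g from
    mem_filter.2 ⟨mem_univ _, hx⟩)]
  exact (mul_le_of_le_one_right (h.mem _).1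
    (prod_le_one (fun v _ => (h.mem v).1) fun v _ => (h.mem v).2)).trans_lt (h.lt x)

lemma det_mat1 {S : Type} [Fintype S] [DecidableEq S] (π : Perm S) (b : S → ℝ) :
    (mat π (fun _ => 1) b).det = ∏ g, (1 - pr π b g) := by
  rw [det_mat]; simp only [pr_one fun _ _ => rfl]

lemma Fld.det_pos {b : Fin T × Λ → ℝ} (h : Fld b) (ξ : Fin T → Bool) :
    0 < (mat (Sg ex ey ξ) (fun _ => 1) b).det := by
  rw [det_mat1]; exact prod_pos fun g _ => sub_pos.2 (h.pr_lt ex ey ξ g)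

variable {p : Fin T → ℝ} {b t : Fin T × Λ → ℝ}

lemma Fld.detA_pos (h : Fld b) (hp : ∀ s, 0 ≤ p s ∧ p s ≤ 1) :
    0 < (1 - Kb ex ey p * diagonal b).det := by
  rw [← avg_det]
  simp only [← mat_eq]
  obtain ⟨ξ, -, hξ⟩ := exists_ne_zero_of_sum_ne_zero ((sum_Pw p).trans_ne one_ne_zero)
  exact sum_pos' (fun ξ _ => mul_nonneg (Pw_nonneg hp ξ) (h.det_pos ex ey ξ).le)
    ⟨ξ, mem_univ _, mul_pos ((Pw_nonneg hp ξ).lt_of_ne hξ.symm) (h.det_pos ex ey ξ)⟩

/-- the cofactor identity. -/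
theorem avg_cof (h : Fld b) (hp : ∀ s, 0 ≤ p s ∧ p s ≤ 1) (t : Fin T × Λ → ℝ) (u : Fin T × Λ) :
    ∑ ξ, Pw p ξ * ((mat (Sg ex ey ξ) (fun _ => 1) b).det *
      (t ⬝ᵥ (mat (Sg ex ey ξ) (fun _ => 1) b)⁻¹ *ᵥ Pi.single u 1)) =
      (1 - Kb ex ey p * diagonal b).det * Gf ex ey p b t u := by
  have key : ∀ K : Matrix (Fin T × Λ) (Fin T × Λ) ℝ, (1 - K * diagonal b).det ≠ 0 →
      (1 - K * diagonal b).det * (t ⬝ᵥ (1 - K * diagonal b)⁻¹ *ᵥ Pi.single u 1) =
        (t u + 1) * (1 - K * diagonal b).det -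
          (1 - K * (diagonal b + vecMulVec (b u • Pi.single u 1) t)).det := by
    intro K hK
    rw [green_step K b hK u, Matrix.mul_add, mul_vecMulVec, ← sub_sub, det_rank_one hK,
      dotProduct_add, dotProduct_single]
    ring
  have h1 := fun ξ => key (PM (Sg ex ey ξ)) (by rw [← mat_eq]; exact (h.det_pos ex ey ξ).ne')
  simp only [mat_eq, h1, Gf]
  rw [key _ (h.detA_pos ex ey hp).ne', ← avg_det, ← avg_det ex ey p (diagonal b + _), mul_sum,
    ← sum_sub_distrib]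
  exact sum_congr rfl fun ξ _ => by ring

/-- weight of the alive set `D` given the coins. -/
noncomputable def aliv (b : Fin T × Λ → ℝ) (ξ : Fin T → Bool) (D : Fin T × Λ → Bool) : ℝ :=
  if ∀ v, D (Sg ex ey ξ v) = D v then
    zd b D * ∏ g, (1 - pr (Sg ex ey ξ) (kill b (on D)) g) else 0

lemma zd_nn {S : Type} [Fintype S] {b : S → ℝ} (h : ∀ v, 0 ≤ b v) (D : S → Bool) : 0 ≤ zd b D :=
  prod_nonneg fun v _ => by split_ifs; exacts [h v, zero_le_one]

lemma aliv_nn (h : Fld b) (ξ : Fin T → Bool) (D : Fin T × Λ → Bool) : 0 ≤ aliv ex ey b ξ D := by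
  unfold aliv; split_ifs
  · exact mul_nonneg (zd_nn (fun v => (h.mem v).1) D)
      (prod_nonneg fun g _ => (sub_pos.2 ((h.kill _).pr_lt ex ey ξ g)).le)
  · exact le_rfl

lemma sum_aliv (b : Fin T × Λ → ℝ) (ξ : Fin T → Bool) : ∑ D, aliv ex ey b ξ D = 1 := by
  unfold aliv
  rw [sum_inv_prod (Sg ex ey ξ) _ fun g k =>
    if k = true then pr (Sg ex ey ξ) b g else 1 - pr (Sg ex ey ξ) b g]
  · simp
  · intro c
    rw [zd_comp, ← prod_mul_distrib]
    refine prod_congr rfl fun g _ => ?_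
    split_ifs with h
    · obtain ⟨v, hv⟩ := o_surj _ g
      rw [pr_zero (a := kill b _) hv (if_pos (mem_on.2 (by simp [hv, h])))]; ring
    · rw [one_mul, pr_congr (a := kill b _) (b := b) fun v hv =>
        if_neg fun k => h (by simpa [mem_on, hv] using k)]

open Classical in
/-- the mass of the alive sets whose child model is not good. -/
noncomputable def badm (p : Fin T → ℝ) (b : Fin T × Λ → ℝ)
    (Good : Finset (Fin T × Λ) → (Fin T → ℝ) → Prop) : ℝ :=
  ∑ ξ, Pw p ξ * ∑ D, aliv ex ey b ξ D *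
    if Good (on D) (pin p (tch ex ey (on D)) ξ) then 0 else 1

open Classical in
/-- **RET**, with the weight kept in the bad part. -/
theorem ret0 (hp : ∀ s, 0 ≤ p s ∧ p s ≤ 1) (hb : Fld b) (u : Fin T × Λ)
    (hu : ∀ ξ, Pw p ξ ≠ 0 → pr (Sg ex ey ξ) b (o _ u) = 0)
    (Gd : Finset (Fin T × Λ) → (Fin T → Bool) → Prop)
    (hloc : ∀ O ξ ξ', (∀ s ∈ tch ex ey O, ξ' s = ξ s) → Gd O ξ → Gd O ξ')
    {γ L : ℝ} (hγ0 : 0 ≤ γ) (hL : 0 ≤ L)
    (hγ : ∀ D ξ, Pw p ξ ≠ 0 → (∀ v, D (Sg ex ey ξ v) = D v) → Gd (on D) ξ →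
      Gf ex ey (pin p (tch ex ey (on D)) ξ) (kill b (on D)) t u ≤ γ)
    (H : (Fin T → Bool) → ℝ) (hH : ∀ ξ, Pw p ξ ≠ 0 → H ξ ≤ L * aw (Sg ex ey ξ) b t u) :
    ∑ ξ, Pw p ξ * H ξ ≤ L * γ +
      ∑ ξ, Pw p ξ * ∑ D, aliv ex ey b ξ D * if Gd (on D) ξ then 0 else H ξ := by
  set g : (Fin T × Λ → Bool) → (Fin T → Bool) → ℝ := fun D ξ =>
    if (∀ v, D (Sg ex ey ξ v) = D v) ∧ Gd (on D) ξ then zd b D else 0
    with hg
  set M := fun (D : Fin T × Λ → Bool) ξ => mat (Sg ex ey ξ) (fun _ => 1) (kill b (on D)) with hM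
  have g0 : ∀ D ξ, 0 ≤ g D ξ := fun D ξ => by
    simp only [hg]; split_ifs; exacts [zd_nn (fun v => (hb.mem v).1) D, le_rfl]
  have gm : ∀ D, PH.Meas (E := fun _ : Fin T => Bool) (fun _ => tch ex ey (on D)) (g D) := by
    intro D ξ ξ' h
    have e : ∀ η η' : Fin T → Bool, (∀ s ∈ tch ex ey (on D), η' s = η s) →
        (∀ v, D (Sg ex ey η v) = D v) → ∀ v, D (Sg ex ey η' v) = D v := fun η η' k hi =>
      inv_of_fwd fun v hv => by rw [Sg_congr ex ey k (mem_on.2 hv), hi, hv]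
    simp only [hg]
    exact if_congr (and_congr ⟨e _ _ fun s hs => (h s hs).symm, e _ _ h⟩
      ⟨hloc _ _ _ fun s hs => (h s hs).symm, hloc _ _ _ h⟩) rfl rfl
  have tow : ∀ D (F : (Fin T → Bool) → ℝ), ∑ ξ, Pw p ξ * (g D ξ * F ξ) =
      ∑ ξ, Pw p ξ * (g D ξ * ∑ ξ', Pw (pin p (tch ex ey (on D)) ξ) ξ' * F ξ') := by
    intro D F
    have := (PH.stop_const (E := fun _ : Fin T => Bool) (tch ex ey (on D))).ex_mul_P
      (pr_pb hp) (gm D) F
    simp only [P_pin] at this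
    exact this.symm
  have s1 : ∀ ξ, Pw p ξ * H ξ ≤ L * ∑ D, Pw p ξ * (g D ξ * ((M D ξ).det *
      (t ⬝ᵥ (M D ξ)⁻¹ *ᵥ Pi.single u 1))) + Pw p ξ * ∑ D, aliv ex ey b ξ D *
        if Gd (on D) ξ then 0 else H ξ := by
    intro ξ
    by_cases h0 : Pw p ξ = 0
    · simp [h0]
    rw [← mul_sum, mul_left_comm, ← mul_add]
    refine mul_le_mul_of_nonneg_left ?_ (Pw_nonneg hp ξ)
    have eH : H ξ = ∑ D, aliv ex ey b ξ D * H ξ := by rw [← sum_mul, sum_aliv, one_mul]
    rw [mul_sum, ← sum_add_distrib]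
    refine eH.trans_le (sum_le_sum fun D _ => ?_)
    have a0 := aliv_nn ex ey hb ξ D
    by_cases hG : Gd (on D) ξ
    swap
    · simp only [hg, hG, and_false, if_false, zero_mul, mul_zero, zero_add, le_refl]
    by_cases hi : ∀ v, D (Sg ex ey ξ v) = D v
    swap
    · simp only [hg, aliv, hi, false_and, if_false, zero_mul, mul_zero, add_zero, le_refl]
    by_cases hz : zd b D = 0
    · simp only [hg, aliv, hz, ite_self, zero_mul, mul_zero, add_zero, le_refl]
    have hD : ∀ i, D ((Sg ex ey ξ)^[i] u) = false := by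
      intro i
      obtain ⟨v, hv, hv0⟩ := prod_eq_zero_iff.1 (hu ξ h0)
      rw [show (univ.filter fun v => o (Sg ex ey ξ) v = o (Sg ex ey ξ) u) = ob _ _ from rfl,
        ob_eq] at hv
      obtain ⟨j, -, rfl⟩ := mem_image.1 hv
      rw [inv_it hi, ← inv_it hi j]
      by_contra hc
      exact hz (prod_eq_zero (mem_univ _) (by rw [if_pos (by simpa using hc), hv0]))
    have hk : ∀ i, kill b (on D) ((Sg ex ey ξ)^[i] u) = b ((Sg ex ey ξ)^[i] u) := fun i =>
      if_neg fun k => by simpa [hD i] using mem_on.1 k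
    have e1 : aw (Sg ex ey ξ) b t u = aw (Sg ex ey ξ) (kill b (on D)) t u := by
      simp only [aw, hk]
    have e2 : pr (Sg ex ey ξ) (kill b (on D)) (o _ u) = 0 := by
      rw [← hu ξ h0, pr, pr, prod_ob, prod_ob]; simp only [hk]
    have e3 := aw_eq (Sg ex ey ξ) (kill b (on D)) t ((hb.kill _).det_pos ex ey ξ).ne' u
    rw [e2, sub_zero, one_mul, ← e1] at e3
    have e4 : aliv ex ey b ξ D = g D ξ * (M D ξ).det := by
      simp only [aliv, hg, hM, hi, hG, implies_true, and_self, if_true, det_mat1]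
    rw [if_pos hG, mul_zero, add_zero, show t ⬝ᵥ (M D ξ)⁻¹ *ᵥ Pi.single u 1 = _ from e3.symm,
      ← mul_assoc (g D ξ), ← e4, mul_left_comm]
    exact mul_le_mul_of_nonneg_left (hH ξ h0) a0
  refine (sum_le_sum fun ξ _ => s1 ξ).trans ?_
  rw [sum_add_distrib, ← mul_sum, sum_comm]
  refine add_le_add (mul_le_mul_of_nonneg_left ?_ hL) le_rfl
  have s2 : ∀ D, ∑ ξ, Pw p ξ * (g D ξ * ((M D ξ).det * (t ⬝ᵥ (M D ξ)⁻¹ *ᵥ Pi.single u 1))) ≤
      γ * ∑ ξ, Pw p ξ * (g D ξ * (M D ξ).det) := by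
    intro D
    rw [tow D fun ξ => (M D ξ).det * (t ⬝ᵥ (M D ξ)⁻¹ *ᵥ Pi.single u 1),
      tow D fun ξ => (M D ξ).det, mul_sum]
    refine sum_le_sum fun ξ _ => ?_
    have hp' := pin_mem hp (tch ex ey (on D)) ξ
    by_cases h0 : Pw p ξ = 0
    · simp [h0]
    rw [mul_left_comm γ]
    refine mul_le_mul_of_nonneg_left ?_ (Pw_nonneg hp ξ)
    simp only [hM]
    rw [avg_cof ex ey (hb.kill _) hp']
    simp only [mat_eq, avg_det]
    by_cases hG : (∀ v, D (Sg ex ey ξ v) = D v) ∧ Gd (on D) ξ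
    · rw [mul_comm γ, mul_assoc]
      exact mul_le_mul_of_nonneg_left (mul_le_mul_of_nonneg_left (hγ _ _ h0 hG.1 hG.2)
        ((hb.kill _).detA_pos ex ey hp').le) (g0 D ξ)
    · simp only [hg, if_neg hG, zero_mul, mul_zero, le_refl]
  refine (sum_le_sum fun D _ => s2 D).trans ?_
  rw [← mul_sum, sum_comm]
  refine mul_le_of_le_one_right hγ0 ?_
  rw [← sum_Pw p]
  refine sum_le_sum fun ξ _ => ?_
  rw [← mul_sum]
  refine mul_le_of_le_one_right (Pw_nonneg hp ξ) ?_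
  rw [← sum_aliv ex ey b ξ]
  refine sum_le_sum fun D _ => ?_
  simp only [hg, hM, det_mat1]
  split_ifs with h
  · simp only [aliv, h.1, implies_true, if_true, le_refl]
  · rw [zero_mul]; exact aliv_nn ex ey hb ξ D

open Classical in
/-- **RET.** -/
theorem ret (hp : ∀ s, 0 ≤ p s ∧ p s ≤ 1) (hb : Fld b) (_ht : ∀ v, 0 ≤ t v) (u : Fin T × Λ)
    (hu : ∀ ξ, Pw p ξ ≠ 0 → pr (Sg ex ey ξ) b (o _ u) = 0)
    (Good : Finset (Fin T × Λ) → (Fin T → ℝ) → Prop) {γ L : ℝ} (hγ0 : 0 ≤ γ) (hL : 0 ≤ L)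
    (hγ : ∀ O ξ, Good O (pin p (tch ex ey O) ξ) →
      Gf ex ey (pin p (tch ex ey O) ξ) (kill b O) t u ≤ γ)
    (H : (Fin T → Bool) → ℝ) (H1 : ∀ ξ, H ξ ≤ 1)
    (hH : ∀ ξ, Pw p ξ ≠ 0 → H ξ ≤ L * aw (Sg ex ey ξ) b t u) :
    ∑ ξ, Pw p ξ * H ξ ≤ L * γ + badm ex ey p b Good := by
  refine (ret0 ex ey hp hb u hu (fun O ξ => Good O (pin p (tch ex ey O) ξ))
    (fun O ξ ξ' h k => by rwa [pin_congr p h]) hγ0 hL (fun D ξ _ _ k => hγ _ _ k) H hH).trans
    (add_le_add le_rfl (sum_le_sum fun ξ _ => mul_le_mul_of_nonneg_left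
      (sum_le_sum fun D _ => mul_le_mul_of_nonneg_left ?_ (aliv_nn ex ey hb ξ D))
      (Pw_nonneg hp ξ)))
  split_ifs; exacts [le_rfl, H1 ξ]

variable {ex ey} {ok : (ℕ → Fin T × Λ) → ℕ → Prop} {u : Fin T × Λ}



end Crest.Agent.N337.Arc
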