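import Crest.Agent.N337.L4.Prod

-- ▼ part N337/L4/Hoeff
section

/-!
# Row 337, L4: the Hoeffding (Efron-Stein, Walsh) decomposition

`hf p S f` is the component of `f` on the set `S` of cells, `Mu p a f = ∑ S, a S • hf p S f`.
-/

set_option autoImplicit false
set_option linter.unusedSectionVars false

namespace Crest.Agent.N337.PH

open Finset

variable {ι : Type} [Fintype ι] [DecidableEq ι] {E : ι → Type} [∀ i, Fintype (E i)]

/-- Moebius transform on the Boolean lattice. -/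
def mob (a : Finset ι → ℝ) (S : Finset ι) : ℝ := ∑ T ∈ S.powerset, (-1) ^ (S \ T).card * a T

lemma mob_insert (a : Finset ι → ℝ) {S : Finset ι} {c : ι} (h : c ∉ S) :
    mob a (insert c S) = mob (fun T => a (insert c T)) S - mob a S := by
  rw [mob, sum_powerset_insert h, add_comm, mob, mob, sub_eq_add_neg, ← sum_neg_distrib]
  congr 1
  · refine sum_congr rfl fun T hT => ?_
    rw [insert_sdiff_insert, sdiff_insert_of_notMem h]
  · refine sum_congr rfl fun T hT => ?_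
    have hc : c ∉ T := fun hc => h (mem_powerset.1 hT hc)
    rw [insert_sdiff_of_notMem _ hc, card_insert_of_notMem fun hc => h (mem_sdiff.1 hc).1]
    ring

lemma sum_mob (B : Finset ι) : ∀ a : Finset ι → ℝ, ∑ S ∈ B.powerset, mob a S = a B := by
  induction B using Finset.induction_on with
  | empty => intro a; simp [mob]
  | insert c B h ih =>
    intro a
    rw [sum_powerset_insert h, sum_congr rfl fun S hS =>
      mob_insert a fun hc => h (mem_powerset.1 hS hc), sum_sub_distrib, ih, ih]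
    ring

/-- Hoeffding component. -/
def hf (p : ∀ i, E i → ℝ) (S : Finset ι) (f : (∀ i, E i) → ℝ) (ω : ∀ i, E i) : ℝ :=
  mob (fun T => C p T f ω) S

/-- spectral multiplier. -/
def Mu (p : ∀ i, E i → ℝ) (a : Finset ι → ℝ) (f : (∀ i, E i) → ℝ) (ω : ∀ i, E i) : ℝ :=
  ∑ S, a S * hf p S f ω

variable {p : ∀ i, E i → ℝ} {R : (∀ i, E i) → Finset ι} {f g : (∀ i, E i) → ℝ}

lemma sum_hf (B : Finset ι) (f : (∀ i, E i) → ℝ) (ω : ∀ i, E i) :
    ∑ S ∈ B.powerset, hf p S f ω = C p B f ω := sum_mob B _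

lemma Pr.sum_hf_univ (hp : Pr p) (f : (∀ i, E i) → ℝ) (ω : ∀ i, E i) :
    ∑ S, hf p S f ω = f ω := by
  rw [← hp.C_univ f ω, ← sum_hf, powerset_univ]


theorem Pr.C_hf (hp : Pr p) (B S : Finset ι) (f : (∀ i, E i) → ℝ) (ω : ∀ i, E i) :
    C p B (hf p S f) ω = if S ⊆ B then hf p S f ω else 0 := by
  have e : C p B (hf p S f) ω = mob (fun T => C p (B ∩ T) f ω) S := by
    unfold hf mob
    rw [C, P_sum]
    refine sum_congr rfl fun T _ => ?_
    rw [P_smul]; beta_reduce; rw [← hp.C_C]; rfl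
  rw [e]
  split_ifs with h
  · exact sum_congr rfl fun T hT => by
      beta_reduce; rw [inter_eq_right.2 ((mem_powerset.1 hT).trans h)]
  · obtain ⟨c, hc, hb⟩ := not_subset.1 h
    rw [← insert_erase hc, mob_insert _ (notMem_erase c S)]
    simp only [inter_insert_of_notMem hb, sub_self]

lemma Pr.P_hf (hp : Pr p) (S : Finset ι) (f : (∀ i, E i) → ℝ) (ω : ∀ i, E i) :
    P p R (hf p S f) ω = if S ⊆ R ω then hf p S f ω else 0 := hp.C_hf _ _ _ _

lemma Pr.hf_orth (hp : Pr p) {S S' : Finset ι} (h : S ≠ S') (f g : (∀ i, E i) → ℝ) :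
    ex p (fun ω => hf p S f ω * hf p S' g ω) = 0 := by
  have key : ∀ {S S' : Finset ι} (f g : (∀ i, E i) → ℝ), ¬ S' ⊆ S →
      ex p (fun ω => hf p S f ω * hf p S' g ω) = 0 := by
    intro S S' f g h
    have e := (stop_const (E := E) S).symm (p := p) (hf p S f) (hf p S' g)
    simp only [hp.P_hf, h, if_false, subset_refl, if_true, mul_zero, hp.ex_const] at e
    exact e.symm
  by_cases h1 : S' ⊆ S
  · have := key g f fun h2 => h (Subset.antisymm h2 h1)
    simpa only [mul_comm] using this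
  · exact key f g h1

/-- Parseval, bilinear form. -/
theorem Pr.ex_Mu_Mu (hp : Pr p) (a b : Finset ι → ℝ) (f g : (∀ i, E i) → ℝ) :
    ex p (fun ω => Mu p a f ω * Mu p b g ω) =
      ∑ S, a S * b S * ex p fun ω => hf p S f ω * hf p S g ω := by
  simp only [Mu, sum_mul_sum, ex_sum]
  refine sum_congr rfl fun S _ => ?_
  rw [sum_eq_single S (fun S' _ h => ?_) (by simp), ← ex_mul]
  · congr 1; ext; ring
  · have := hp.hf_orth h.symm f g
    rw [show (fun ω => a S * hf p S f ω * (b S' * hf p S' g ω)) =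
      fun ω => a S * b S' * (hf p S f ω * hf p S' g ω) by ext; ring, ex_mul, this, mul_zero]

/-- Parseval. -/
theorem Pr.nsq_Mu (hp : Pr p) (a : Finset ι → ℝ) (f : (∀ i, E i) → ℝ) :
    nsq p (Mu p a f) = ∑ S, a S ^ 2 * nsq p (hf p S f) := by
  simpa only [nsq, sq] using hp.ex_Mu_Mu a a f f

lemma Pr.Mu_one (hp : Pr p) (f : (∀ i, E i) → ℝ) (ω : ∀ i, E i) : Mu p (fun _ => 1) f ω = f ω := by
  simp only [Mu, one_mul, hp.sum_hf_univ]

lemma Pr.P_Mu (hp : Pr p) (a : Finset ι → ℝ) (f : (∀ i, E i) → ℝ) (ω : ∀ i, E i) :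
    P p R (Mu p a f) ω = Mu p (fun S => if S ⊆ R ω then a S else 0) f ω := by
  unfold Mu
  rw [P_sum]
  refine sum_congr rfl fun S _ => ?_
  rw [P_smul, hp.P_hf]; by_cases h : S ⊆ R ω <;> simp [h]

lemma Pr.C_Mu (hp : Pr p) (B : Finset ι) (a : Finset ι → ℝ) (f : (∀ i, E i) → ℝ) :
    C p B (Mu p a f) = Mu p (fun S => if S ⊆ B then a S else 0) f := funext fun ω => hp.P_Mu a f ω

lemma Mu_sub (a b : Finset ι → ℝ) (f : (∀ i, E i) → ℝ) (ω : ∀ i, E i) :
    Mu p a f ω - Mu p b f ω = Mu p (fun S => a S - b S) f ω := by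
  simp only [Mu, sub_mul, sum_sub_distrib]

lemma Mu_sum {κ : Type} (s : Finset κ) (c : κ → ℝ) (a : κ → Finset ι → ℝ) (f : (∀ i, E i) → ℝ)
    (ω : ∀ i, E i) : ∑ k ∈ s, c k * Mu p (a k) f ω = Mu p (fun S => ∑ k ∈ s, c k * a k S) f ω := by
  simp only [Mu, mul_sum, sum_mul, mul_assoc]; exact sum_comm

lemma subset_compl_single {S : Finset ι} {c : ι} : S ⊆ {c}ᶜ ↔ c ∉ S := by
  simp only [subset_iff, mem_compl, mem_singleton]
  exact ⟨fun h hc => h hc rfl, fun h x hx e => h (e ▸ hx)⟩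

lemma Pr.D_Mu (hp : Pr p) (c : ι) (a : Finset ι → ℝ) (f : (∀ i, E i) → ℝ) :
    D p c (Mu p a f) = Mu p (fun S => if c ∈ S then a S else 0) f := by
  ext ω
  rw [D, hp.C_Mu, Mu_sub]
  congr 1; ext S
  simp only [subset_compl_single]; by_cases h : c ∈ S <;> simp [h]

lemma Pr.eq_Mu (hp : Pr p) (f : (∀ i, E i) → ℝ) : f = Mu p (fun _ => 1) f :=
  funext fun ω => (hp.Mu_one f ω).symm


lemma Pr.sub_ex (hp : Pr p) (f : (∀ i, E i) → ℝ) :
    (fun ω => f ω - ex p f) = Mu p (fun S => if S = ∅ then 0 else 1) f := by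
  ext ω
  rw [← C_empty f ω]
  conv_lhs => rw [hp.eq_Mu f, hp.C_Mu, Mu_sub]
  congr 1; ext S
  simp only [subset_empty]; split_ifs <;> simp

lemma Pr.var_eq (hp : Pr p) (f : (∀ i, E i) → ℝ) :
    var p f = ∑ S, (if S = ∅ then 0 else 1) * nsq p (hf p S f) := by
  rw [var, hp.sub_ex, hp.nsq_Mu]
  exact sum_congr rfl fun S _ => by split_ifs <;> simp

/-- total influence on a set of cells. -/
lemma Pr.sum_nsq_D (hp : Pr p) (V : Finset ι) (a : Finset ι → ℝ) (f : (∀ i, E i) → ℝ) :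
    ∑ c ∈ V, nsq p (D p c (Mu p a f)) = ∑ S, (V ∩ S).card * a S ^ 2 * nsq p (hf p S f) := by
  simp only [hp.D_Mu, hp.nsq_Mu]
  rw [sum_comm]
  refine sum_congr rfl fun S _ => ?_
  rw [← sum_mul]
  congr 1
  simp only [ite_pow, ne_eq, OfNat.ofNat_ne_zero, not_false_eq_true, zero_pow]
  rw [← sum_filter, filter_mem_eq_inter, sum_const, nsmul_eq_mul]

/-- Efron-Stein between two fixed sets of cells. -/
theorem Pr.es (hp : Pr p) {A B : Finset ι} (h : A ⊆ B) (f : (∀ i, E i) → ℝ) :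
    nsq p (fun ω => C p B f ω - C p A f ω) ≤ ∑ c ∈ B \ A, nsq p (D p c f) := by
  rw [hp.eq_Mu f, hp.sum_nsq_D, hp.C_Mu, hp.C_Mu]
  simp only [Mu_sub]
  rw [hp.nsq_Mu]
  refine sum_le_sum fun S _ => mul_le_mul_of_nonneg_right ?_ (hp.nsq_nn _)
  by_cases hA : S ⊆ A
  · simp [hA, hA.trans h]
  by_cases hB : S ⊆ B
  · obtain ⟨c, hc, ha⟩ := not_subset.1 hA
    have : 1 ≤ (B \ A ∩ S).card := card_pos.2 ⟨c, by simp [hc, ha, hB hc]⟩
    simpa [hA, hB] using (by exact_mod_cast this : (1 : ℝ) ≤ (B \ A ∩ S).card)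
  · simp [hA, hB]



end Crest.Agent.N337.PH
end

-- ▼ part N337/L4/Shearer

/-!
# Row 337, L4: adaptive Shearer inequality

Explorers reveal cells of a product space adaptively.  If every cell is revealed by explorers of
total weight at most `m` and every explorer reveals at most `N` cells then
`∑ a, ρ a * Var (E[g | F^a]) ≤ 8 m (log₂ N + 1) Var g`.
-/

set_option autoImplicit false
set_option linter.unusedSectionVars false

namespace Crest.Agent.N337.PH

open Finset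

variable {ι : Type} [Fintype ι] [DecidableEq ι] {E : ι → Type} [∀ i, Fintype (E i)]

/-- an explorer: increasing predictable sequence of revealed sets with a fixed first set. -/
structure Expl (R : ℕ → (∀ i, E i) → Finset ι) : Prop where
  zero : ∀ ω ω', R 0 ω' = R 0 ω
  mono : ∀ t ω, R t ω ⊆ R (t + 1) ω
  pred : ∀ t ω ω', (∀ i ∈ R t ω, ω' i = ω i) → R (t + 1) ω' = R (t + 1) ω

variable {p : ∀ i, E i → ℝ} {f g : (∀ i, E i) → ℝ} {X : ℕ → (∀ i, E i) → Finset ι}

lemma Expl.stop (h : Expl X) : ∀ t, Stop (X t)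
  | 0 => fun ω ω' _ => h.zero ω ω'
  | t + 1 => fun ω ω' e => h.pred t ω ω' fun i hi => e i (h.mono t ω hi)

lemma Expl.le (h : Expl X) {s t : ℕ} (hst : s ≤ t) (ω : ∀ i, E i) : X s ω ⊆ X t ω :=
  monotone_nat_of_le_succ (f := fun t => X t ω) (fun t => h.mono t ω) hst

lemma Expl.union (h : Expl X) (A : Finset ι) : Expl fun t ω => X t ω ∪ A :=
  ⟨fun ω ω' => by rw [h.zero ω ω'], fun t ω => union_subset_union_left (h.mono t ω),
    fun t ω ω' e => by rw [h.pred t ω ω' fun i hi => e i (mem_union_left _ hi)]⟩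

/-- weighted Efron-Stein. -/
lemma Pr.es_w (hp : Pr p) {A B : Finset ι} (h : A ⊆ B) (hf : Meas (fun _ => A) f)
    (g : (∀ i, E i) → ℝ) :
    ex p (fun ω => f ω ^ 2 * (C p B g ω - C p A g ω) ^ 2) ≤
      ∑ c ∈ B \ A, ex p fun ω => f ω ^ 2 * D p c g ω ^ 2 := by
  have k := hp.es h fun ω => f ω * g ω
  have hB : Meas (fun _ => B) f := hf.mono fun _ => h
  simp only [C, hf.P_mul, hB.P_mul, nsq, ← mul_sub, mul_pow] at k
  refine k.trans (le_of_eq (sum_congr rfl fun c hc => ?_))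
  have hc' : Meas (fun _ => ({c}ᶜ : Finset ι)) f :=
    hf.mono fun _ => subset_compl_single.2 (mem_sdiff.1 hc).2
  simp only [D, C, hc'.P_mul, ← mul_sub, mul_pow]

/-- one predictable step. -/
lemma Pr.step (hp : Pr p) {R R' : (∀ i, E i) → Finset ι} (hR : Stop R) (h : ∀ ω, R ω ⊆ R' ω)
    (h' : ∀ ω ω', (∀ i ∈ R ω, ω' i = ω i) → R' ω' = R' ω) (g : (∀ i, E i) → ℝ) :
    nsq p (fun ω => P p R' g ω - P p R g ω) ≤ ex p fun ω => ∑ c ∈ R' ω \ R ω, D p c g ω ^ 2 := by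
  set I : Finset ι × Finset ι → (∀ i, E i) → ℝ := fun x ω => if x = (R ω, R' ω) then 1 else 0
  have hI : ∀ x, Meas (fun _ => x.1) (I x) := by
    rintro ⟨A, B⟩ ω ω' e
    simp only [I, Prod.mk.injEq]
    by_cases h1 : A = R ω
    · subst h1; rw [hR ω ω' e, h' ω ω' e]
    · rw [if_neg (c := A = R ω ∧ B = R' ω) fun k => h1 k.1, if_neg]
      rintro ⟨rfl, -⟩
      exact h1 (hR ω' ω fun i hi => (e i hi).symm).symm
  have e1 : (fun ω => (P p R' g ω - P p R g ω) ^ 2) =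
      fun ω => ∑ x, I x ω ^ 2 * (C p x.2 g ω - C p x.1 g ω) ^ 2 := by
    ext ω; simp [I, P_eq_C]
  have e2 : (fun ω => ∑ c ∈ R' ω \ R ω, D p c g ω ^ 2) =
      fun ω => ∑ x, ∑ c ∈ x.2 \ x.1, I x ω ^ 2 * D p c g ω ^ 2 := by
    ext ω; simp [I]
  rw [nsq, e1, e2, ex_sum, ex_sum]
  refine sum_le_sum fun x _ => ?_
  rw [ex_sum]
  by_cases hx : x.1 ⊆ x.2
  · exact hp.es_w hx (hI x) g
  · have : ∀ ω, I x ω = 0 := fun ω => if_neg fun k => hx (by rw [k]; exact h ω)
    simp [this, ex]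

/-- Schramm-Steif inequality for one explorer. -/
theorem Expl.ss (hp : Pr p) (h : Expl X) (g : (∀ i, E i) → ℝ) (T : ℕ) :
    nsq p (fun ω => P p (X T) g ω - P p (X 0) g ω) ≤
      ex p fun ω => ∑ c ∈ X T ω \ X 0 ω, D p c g ω ^ 2 := by
  induction T with
  | zero => simp [nsq, ex]
  | succ T ih =>
    have a := (h.stop 0).nsq_incr hp (h.stop (T + 1)) (h.le (Nat.zero_le _)) g
    have b := (h.stop 0).nsq_incr hp (h.stop T) (h.le (Nat.zero_le _)) g
    have c := (h.stop T).nsq_incr hp (h.stop (T + 1)) (h.mono T) g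
    have d := hp.step (h.stop T) (h.mono T) (h.pred T) g
    have e : (fun ω => ∑ c ∈ X (T + 1) ω \ X 0 ω, D p c g ω ^ 2) = fun ω =>
        ∑ c ∈ X T ω \ X 0 ω, D p c g ω ^ 2 + ∑ c ∈ X (T + 1) ω \ X T ω, D p c g ω ^ 2 := by
      ext ω
      rw [← sum_union, union_comm, sdiff_union_sdiff_cancel (h.mono T ω) (h.le (Nat.zero_le _) ω)]
      exact disjoint_sdiff_self_right.mono_left sdiff_subset
    rw [e, ex_add]; linarith

variable {α : Type} {s : Finset α} {ρ : α → ℝ} {Y : α → ℕ → (∀ i, E i) → Finset ι} {T : ℕ} {m : ℝ}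

/-- functions of conditional mean zero given the cells off `U`. -/
lemma Pr.shearer_U (hp : Pr p) (hY : ∀ a ∈ s, Expl (Y a)) (h0 : ∀ a ∈ s, ∀ ω, Y a 0 ω = ∅)
    (hρ : ∀ a ∈ s, 0 ≤ ρ a) (hm : ∀ ω c, ∑ a ∈ s, (if c ∈ Y a T ω then ρ a else 0) ≤ m)
    (U : Finset ι) (hg : ∀ ω, C p Uᶜ g ω = 0) :
    ∑ a ∈ s, ρ a * nsq p (P p (Y a T) g) ≤ m * ∑ c ∈ U, nsq p (D p c g) := by
  have k : ∀ a ∈ s, ρ a * nsq p (P p (Y a T) g) ≤
      ex p fun ω => ∑ c ∈ U, (if c ∈ Y a T ω then ρ a else 0) * D p c g ω ^ 2 := by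
    intro a ha
    have h1 := ((hY a ha).stop T).nsq_mono hp (((hY a ha).union Uᶜ).stop T)
      (fun ω => subset_union_left) g
    have h2 := ((hY a ha).union Uᶜ).ss hp g T
    have hg' : ∀ ω, P p (fun _ => Uᶜ) g ω = 0 := hg
    simp only [h0 a ha, empty_union, hg', sub_zero] at h2
    refine (mul_le_mul_of_nonneg_left (h1.trans h2) (hρ a ha)).trans (le_of_eq ?_)
    rw [← ex_mul]
    congr 1; ext ω
    rw [union_sdiff_right, sdiff_compl, inf_eq_inter, inter_comm, ← filter_mem_eq_inter,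
      sum_filter, mul_sum]
    exact sum_congr rfl fun c _ => by split_ifs <;> simp
  refine (sum_le_sum k).trans ?_
  simp only [nsq]
  rw [← ex_sum, ← ex_sum, ← ex_mul]
  refine hp.ex_mono fun ω => ?_
  rw [sum_comm, mul_sum]
  refine sum_le_sum fun c _ => ?_
  rw [← sum_mul]
  exact mul_le_mul_of_nonneg_right (hm ω c) (sq_nonneg _)

lemma ex_prod (F : ∀ i, E i → ℝ) : ex p (fun ω => ∏ i, F i (ω i)) = ∏ i, ∑ x, p i x * F i x := by
  rw [Finset.prod_univ_sum, Fintype.piFinset_univ]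
  simp only [ex, w, prod_mul_distrib]

/-- Bernoulli coins. -/
def ber (ι : Type) (t : ℝ) : ι → Bool → ℝ := fun _ b => if b then t else 1 - t

lemma pr_ber {t : ℝ} (h0 : 0 ≤ t) (h1 : t ≤ 1) : Pr (ber ι t) :=
  ⟨fun _ b => by cases b <;> simp [ber, h0, h1], fun _ => by simp [ber]⟩

/-- the random set of the coins. -/
def rs (b : ι → Bool) : Finset ι := univ.filter fun i => b i

lemma ex_disj (t : ℝ) (S : Finset ι) :
    ex (ber ι t) (fun b => if S ⊆ (rs b)ᶜ then 1 else 0) = (1 - t) ^ S.card := by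
  have e : (fun b : ι → Bool => if S ⊆ (rs b)ᶜ then (1 : ℝ) else 0) =
      fun b => ∏ i, if i ∈ S ∧ b i then 0 else 1 := by
    ext b
    split_ifs with h
    · exact (prod_eq_one fun i _ => if_neg fun k => by simpa [rs, k.2] using h k.1).symm
    · obtain ⟨i, hi, hb⟩ := not_subset.1 h
      refine (prod_eq_zero (mem_univ i) ?_).symm
      exact if_pos ⟨hi, by simpa [rs] using hb⟩
  rw [e, ex_prod (p := ber ι t) fun i x => if i ∈ S ∧ x = true then 0 else 1,
    ← prod_const, ← prod_ite_mem_eq S]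
  exact prod_congr rfl fun i _ => by by_cases h : i ∈ S <;> simp [ber, h]

lemma ex_card (t : ℝ) (S : Finset ι) : ex (ber ι t) (fun b => ((rs b ∩ S).card : ℝ)) = t * S.card := by
  have e : (fun b : ι → Bool => ((rs b ∩ S).card : ℝ)) =
      fun b => ∑ i ∈ S, ∏ j, if j = i then (if b j then 1 else 0) else 1 := by
    ext b
    simp only [prod_ite_eq', mem_univ, if_true, sum_boole, rs]
    congr 2; ext; simp [and_comm]
  rw [e, ex_sum, sum_congr rfl fun i _ =>
    ex_prod (p := ber ι t) fun j x => if j = i then (if x = true then 1 else 0) else 1]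
  have : ∀ i : ι, ∏ j : ι, ∑ x, ber ι t j x * (if j = i then (if x = true then 1 else 0) else 1) = t := by
    intro i
    rw [prod_eq_single i (fun j _ h => by simp [ber, h]) (by simp)]
    simp [ber]
  simp only [this, sum_const, nsmul_eq_mul]
  ring

/-- spectral form: a multiplier `(1 - (1-t)^|S|) b S` costs `m t |S| b S ^ 2`. -/
theorem Pr.shearer_Mu (hp : Pr p) (hY : ∀ a ∈ s, Expl (Y a)) (h0 : ∀ a ∈ s, ∀ ω, Y a 0 ω = ∅)
    (hρ : ∀ a ∈ s, 0 ≤ ρ a) (hm : ∀ ω c, ∑ a ∈ s, (if c ∈ Y a T ω then ρ a else 0) ≤ m)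
    (hm0 : 0 ≤ m) {t : ℝ} (t0 : 0 ≤ t) (t1 : t ≤ 1) (b : Finset ι → ℝ) (g : (∀ i, E i) → ℝ) :
    ∑ a ∈ s, ρ a * nsq p (P p (Y a T) (Mu p (fun S => (1 - (1 - t) ^ S.card) * b S) g)) ≤
      m * ∑ S, t * S.card * b S ^ 2 * nsq p (hf p S g) := by
  have hb := pr_ber (ι := ι) t0 t1
  set B : (ι → Bool) → Finset ι → ℝ := fun β S => (1 - if S ⊆ (rs β)ᶜ then 1 else 0) * b S
  have e : Mu p (fun S => (1 - (1 - t) ^ S.card) * b S) g =
      fun ω => ∑ β, w (ber ι t) β * Mu p (B β) g ω := by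
    ext ω
    rw [Mu_sum]
    congr 1; ext S
    have : 1 - (1 - t) ^ S.card = ex (ber ι t) fun β => 1 - if S ⊆ (rs β)ᶜ then 1 else 0 := by
      rw [ex_sub, hb.ex_const, ex_disj]
    rw [this, ex, sum_mul]
    simp only [B, mul_assoc]
  have j : ∀ a, nsq p (P p (Y a T) fun ω => ∑ β, w (ber ι t) β * Mu p (B β) g ω) ≤
      ex (ber ι t) fun β => nsq p (P p (Y a T) (Mu p (B β) g)) := by
    intro a
    have : (ex (ber ι t) fun β => nsq p (P p (Y a T) (Mu p (B β) g))) =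
        ex p fun ω => nsq (ber ι t) fun β => P p (Y a T) (Mu p (B β) g) ω := by
      simp only [nsq, ex, mul_sum]
      rw [sum_comm]
      exact sum_congr rfl fun _ _ => sum_congr rfl fun _ _ => by ring
    rw [this]
    refine hp.ex_mono fun ω => ?_
    simp only [P_sum, P_smul]
    exact hb.sq_ex_le _
  rw [e]
  refine (sum_le_sum fun a ha => mul_le_mul_of_nonneg_left (j a) (hρ a ha)).trans ?_
  simp only [← ex_mul]
  rw [← ex_sum]
  have k : ∀ β, ∑ a ∈ s, ρ a * nsq p (P p (Y a T) (Mu p (B β) g)) ≤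
      m * ∑ S, b S ^ 2 * nsq p (hf p S g) * ((rs β ∩ S).card : ℝ) := by
    intro β
    refine (hp.shearer_U hY h0 hρ hm (rs β) fun ω => ?_).trans ?_
    · rw [hp.C_Mu]
      exact sum_eq_zero fun S _ => by by_cases h : S ⊆ (rs β)ᶜ <;> simp [B, h]
    · rw [hp.sum_nsq_D]
      refine mul_le_mul_of_nonneg_left (sum_le_sum fun S _ => ?_) hm0
      have := hp.nsq_nn (hf p S g)
      by_cases h : S ⊆ (rs β)ᶜ
      · simp only [B, h, if_true, sub_self, zero_mul, mul_zero, ne_eq, OfNat.ofNat_ne_zero,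
          not_false_eq_true, zero_pow]
        positivity
      · simp only [B, h, if_false, sub_zero, one_mul]
        exact le_of_eq (by ring)
  refine (hb.ex_mono k).trans (le_of_eq ?_)
  rw [ex_mul, ex_sum]
  simp only [ex_mul, ex_card]
  congr 1
  exact sum_congr rfl fun _ _ => by ring

lemma half_le {k n : ℕ} (h : 2 ^ k ≤ n) : 1 / 2 ≤ 1 - (1 - 1 / (2 : ℝ) ^ k) ^ n := by
  have h1 : (1 : ℝ) ≤ 2 ^ k := one_le_pow₀ one_le_two
  set d : ℝ := 2 ^ k with hd
  have t1 : 1 / d ≤ 1 := by rw [div_le_one (by linarith)]; exact h1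
  have t0 : 0 ≤ 1 / d := by positivity
  have a : 1 + (n : ℝ) * (1 / d) ≤ (1 + 1 / d) ^ n := one_add_mul_le_pow (by linarith) n
  have b : (1 : ℝ) ≤ n * (1 / d) := by
    rw [mul_one_div, le_div_iff₀ (by linarith), one_mul, hd]; exact_mod_cast h
  have c : (1 - 1 / d) ^ n * (1 + 1 / d) ^ n ≤ 1 := by
    rw [← mul_pow]; exact pow_le_one₀ (by nlinarith) (by nlinarith)
  have e : 0 ≤ (1 - 1 / d) ^ n := pow_nonneg (by linarith) n
  nlinarith

/-- **adaptive Shearer inequality**. -/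
theorem Pr.shearer (hp : Pr p) (hY : ∀ a ∈ s, Expl (Y a)) (h0 : ∀ a ∈ s, ∀ ω, Y a 0 ω = ∅)
    (hρ : ∀ a ∈ s, 0 ≤ ρ a) (hm : ∀ ω c, ∑ a ∈ s, (if c ∈ Y a T ω then ρ a else 0) ≤ m)
    (hm0 : 0 ≤ m) {N : ℕ} (hN : ∀ a ∈ s, ∀ ω, (Y a T ω).card ≤ N) (g : (∀ i, E i) → ℝ) :
    ∑ a ∈ s, ρ a * nsq p (fun ω => P p (Y a T) g ω - ex p g) ≤
      8 * m * (Nat.log 2 N + 1) * var p g := by
  set A : ℕ → Finset ι → ℝ := fun k S => if S ≠ ∅ ∧ Nat.log 2 S.card = k then 1 else 0 with hA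
  set K := Nat.log 2 N + 1 with hK
  have e : ∀ a ∈ s, ∀ ω, P p (Y a T) g ω - ex p g =
      ∑ k ∈ range K, 1 * P p (Y a T) (Mu p (A k) g) ω := by
    intro a ha ω
    rw [← hp.P_const (R := Y a T) (ex p g) ω, ← P_sub, hp.sub_ex]
    simp only [hp.P_Mu]
    rw [Mu_sum]
    congr 1; ext S
    by_cases h : S ⊆ Y a T ω
    · have : Nat.log 2 S.card < K :=
        Nat.lt_succ_of_le (Nat.log_mono_right ((card_le_card h).trans (hN a ha ω)))
      by_cases h' : S = ∅ <;> simp [h, A, h', this]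
    · simp [h]
  have blk : ∀ k, ∑ a ∈ s, ρ a * nsq p (P p (Y a T) (Mu p (A k) g)) ≤
      8 * m * ∑ S, A k S * nsq p (hf p S g) := by
    intro k
    have h1 : (1 : ℝ) ≤ 2 ^ k := one_le_pow₀ one_le_two
    have h := hp.shearer_Mu hY h0 hρ hm hm0 (t := 1 / 2 ^ k) (by positivity)
      (by rw [div_le_one (by linarith)]; exact h1)
      (fun S => A k S / (1 - (1 - 1 / 2 ^ k) ^ S.card)) g
    have q : ∀ S : Finset ι, S ≠ ∅ → Nat.log 2 S.card = k →
        1 / 2 ≤ 1 - (1 - 1 / (2 : ℝ) ^ k) ^ S.card := fun S h1 h2 =>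
      half_le (h2 ▸ Nat.pow_log_le_self 2 (card_ne_zero.2 (nonempty_iff_ne_empty.2 h1)))
    have e1 : (fun S : Finset ι => (1 - (1 - 1 / (2 : ℝ) ^ k) ^ S.card) *
        (A k S / (1 - (1 - 1 / 2 ^ k) ^ S.card))) = A k := by
      ext S
      by_cases hS : S ≠ ∅ ∧ Nat.log 2 S.card = k
      · have := q S hS.1 hS.2
        rw [mul_div_cancel₀ _ (by linarith)]
      · simp only [A, hS, if_false, zero_div, mul_zero]
    rw [e1] at h
    refine h.trans ?_
    rw [mul_comm 8 m, mul_assoc, mul_sum _ _ 8]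
    refine mul_le_mul_of_nonneg_left (sum_le_sum fun S _ => ?_) hm0
    rw [← mul_assoc]
    refine mul_le_mul_of_nonneg_right ?_ (hp.nsq_nn _)
    by_cases hS : S ≠ ∅ ∧ Nat.log 2 S.card = k
    · have h2 := q S hS.1 hS.2
      have h3 : (S.card : ℝ) ≤ 2 * 2 ^ k := by
        have := Nat.lt_pow_succ_log_self one_lt_two S.card
        rw [hS.2, pow_succ, mul_comm] at this
        exact_mod_cast this.le
      have h4 : 1 / (2 : ℝ) ^ k * S.card ≤ 2 := by
        rw [one_div_mul_eq_div, div_le_iff₀ (by linarith)]; exact h3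
      have h5 : (1 / (1 - (1 - 1 / (2 : ℝ) ^ k) ^ S.card)) ^ 2 ≤ 2 ^ 2 := by
        gcongr; rw [div_le_iff₀ (by linarith)]; linarith
      simp only [A, hS, ne_eq, not_false_eq_true, and_self, if_true]
      calc _ ≤ (2 : ℝ) * 2 ^ 2 := by gcongr
        _ = _ := by norm_num
    · simp [A, hS]
  have cs : ∀ a ∈ s, nsq p (fun ω => P p (Y a T) g ω - ex p g) ≤
      K * ∑ k ∈ range K, nsq p (P p (Y a T) (Mu p (A k) g)) := by
    intro a ha
    simp only [nsq]
    rw [← ex_sum, ← ex_mul]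
    refine hp.ex_mono fun ω => ?_
    rw [e a ha]
    simpa using sum_mul_sq_le_sq_mul_sq (range K) (fun _ => (1 : ℝ))
      fun k => P p (Y a T) (Mu p (A k) g) ω
  calc _ ≤ ∑ a ∈ s, ρ a * (K * ∑ k ∈ range K, nsq p (P p (Y a T) (Mu p (A k) g))) :=
        sum_le_sum fun a ha => mul_le_mul_of_nonneg_left (cs a ha) (hρ a ha)
    _ = K * ∑ k ∈ range K, ∑ a ∈ s, ρ a * nsq p (P p (Y a T) (Mu p (A k) g)) := by
        rw [sum_comm, mul_sum]
        exact sum_congr rfl fun a _ => by rw [← mul_sum]; ring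
    _ ≤ K * ∑ k ∈ range K, 8 * m * ∑ S, A k S * nsq p (hf p S g) := by
        gcongr with k; exact blk k
    _ ≤ K * (8 * m * var p g) := by
        rw [← mul_sum, sum_comm, hp.var_eq]
        gcongr with S
        rw [← sum_mul]
        refine mul_le_mul_of_nonneg_right ?_ (hp.nsq_nn _)
        by_cases h : S = ∅
        · simp [A, h]
        · simp only [A, h, ne_eq, not_false_eq_true, true_and, sum_ite_eq, if_false]
          split_ifs <;> simp
    _ = _ := by rw [hK]; push_cast; ring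


end Crest.Agent.N337.PH
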