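import Mathlib
import Crest.Agent.N337.L4.Shearer

-- ▼ part N337/L4/Zeno
section

/-!
# Row 337, block L4 (helper96): Lemma Z (Zeno bound without windows)

Finite probability space with weights `p`, filtration given by equivalence relations `r t`.
If `h ≥ 0` and `X` are martingales, `X 0 = 0`, and `X` only moves while `h ≤ q`, then
`E[h_T X_T²] ≤ 64 q E[X_T²]` (`zeno`).
-/

set_option autoImplicit false

namespace Crest.Agent.N337.L4

open Finset

section defs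
variable {Ω : Type} [Fintype Ω]

/-- expectation with weights `p`. -/
def Ex (p f : Ω → ℝ) : ℝ := ∑ ω, p ω * f ω

/-- `g` is constant on the classes of `r`. -/
def Ms (r : Ω → Ω → Prop) (g : Ω → ℝ) : Prop := ∀ ω ω', r ω ω' → g ω = g ω'

/-- a filtration: decreasing equivalence relations. -/
structure Filt (r : ℕ → Ω → Ω → Prop) : Prop where
  eqv : ∀ t, Equivalence (r t)
  mono : ∀ t ω ω', r (t + 1) ω ω' → r t ω ω'

/-- martingale up to time `T`. -/
structure Mart (p : Ω → ℝ) (r : ℕ → Ω → Ω → Prop) (T : ℕ) (M : ℕ → Ω → ℝ) : Prop where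
  ms : ∀ t, t ≤ T → Ms (r t) (M t)
  orth : ∀ t, t < T → ∀ g, Ms (r t) g →
    Ex p (fun ω => g ω * M (t + 1) ω) = Ex p (fun ω => g ω * M t ω)

open Classical in
/-- conditional expectation given the classes of `r`. -/
noncomputable def ce (p : Ω → ℝ) (r : Ω → Ω → Prop) (F : Ω → ℝ) (ω : Ω) : ℝ :=
  (∑ ω', if r ω ω' then p ω' * F ω' else 0) / ∑ ω', if r ω ω' then p ω' else 0
end defs

variable {Ω : Type} [Fintype Ω] {p : Ω → ℝ}

theorem Ex_mono (hp : ∀ ω, 0 ≤ p ω) {f g : Ω → ℝ} (h : ∀ ω, f ω ≤ g ω) : Ex p f ≤ Ex p g :=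
  sum_le_sum fun ω _ => mul_le_mul_of_nonneg_left (h ω) (hp ω)

theorem Ex_nonneg (hp : ∀ ω, 0 ≤ p ω) {f : Ω → ℝ} (h : ∀ ω, 0 ≤ f ω) : 0 ≤ Ex p f :=
  sum_nonneg fun ω _ => mul_nonneg (hp ω) (h ω)

theorem Ex_add (f g : Ω → ℝ) : Ex p (fun ω => f ω + g ω) = Ex p f + Ex p g := by
  simp only [Ex, mul_add, sum_add_distrib]

theorem Ex_sub (f g : Ω → ℝ) : Ex p (fun ω => f ω - g ω) = Ex p f - Ex p g := by
  simp only [Ex, mul_sub, sum_sub_distrib]

theorem Ex_smul (c : ℝ) (f : Ω → ℝ) : Ex p (fun ω => c * f ω) = c * Ex p f := by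
  simp only [Ex, mul_sum]
  exact sum_congr rfl fun ω _ => by ring

theorem ce_ms {r : Ω → Ω → Prop} (hr : Equivalence r) (F : Ω → ℝ) : Ms r (ce p r F) := by
  intro ω ω' h
  have : r ω = r ω' := funext fun η =>
    propext ⟨fun a => hr.trans (hr.symm h) a, fun a => hr.trans h a⟩
  unfold ce
  rw [this]


theorem ce_orth (hp : ∀ ω, 0 ≤ p ω) {r : Ω → Ω → Prop} (hr : Equivalence r) (F : Ω → ℝ)
    {g : Ω → ℝ} (hg : Ms r g) :
    Ex p (fun ω => g ω * ce p r F ω) = Ex p (fun ω => g ω * F ω) := by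
  classical
  set w : Ω → ℝ := fun ω => ∑ ω', if r ω ω' then p ω' else 0 with hw
  have hw0 : ∀ ω, p ω ≤ w ω := fun ω => by
    have := single_le_sum (s := univ) (f := fun ω' => if r ω ω' then p ω' else 0)
      (fun η _ => by split_ifs; exacts [hp η, le_rfl]) (mem_univ ω)
    simpa [hr.refl ω] using this
  have hww : ∀ ω η, r ω η → w ω = w η := fun ω η h => by
    have : ∀ ζ, r ω ζ ↔ r η ζ := fun ζ => ⟨fun a => hr.trans (hr.symm h) a, fun a => hr.trans h a⟩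
    simp only [hw, this]
  have h1 : Ex p (fun ω => g ω * ce p r F ω) =
      ∑ ω, ∑ η, if r η ω then p ω * (g η * (p η * F η) / w η) else 0 := by
    refine sum_congr rfl fun ω _ => ?_
    have : ce p r F ω = (∑ ω', if r ω ω' then p ω' * F ω' else 0) / w ω := by
      simp only [ce, hw]
    simp only [this, sum_div, mul_sum]
    refine sum_congr rfl fun η _ => ?_
    by_cases h : r ω η
    · rw [if_pos h, if_pos (hr.symm h), hg ω η h, hww ω η h]; ring
    · rw [if_neg h, if_neg fun a => h (hr.symm a)]; simp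
  rw [h1, sum_comm]
  refine sum_congr rfl fun η _ => ?_
  have h2 : (∑ ω, if r η ω then p ω * (g η * (p η * F η) / w η) else 0) =
      w η * (g η * (p η * F η) / w η) := by
    simp only [hw, sum_mul]
    exact sum_congr rfl fun ω _ => by split_ifs <;> simp
  rw [h2]
  by_cases h0 : w η = 0
  · have : p η = 0 := le_antisymm (h0 ▸ hw0 η) (hp η)
    simp [this]
  · field_simp

/-- the martingale closed by a terminal variable. -/
theorem exists_mart (hp : ∀ ω, 0 ≤ p ω) {r : ℕ → Ω → Ω → Prop} (hr : Filt r) (T : ℕ)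
    {F : Ω → ℝ} (hF : Ms (r T) F) : ∃ A, Mart p r T A ∧ A T = F := by
  refine ⟨fun t => if t = T then F else ce p (r t) F, ⟨fun t _ => ?_, fun t ht g hg => ?_⟩, by simp⟩
  · by_cases h : t = T
    · simpa [h] using hF
    · simpa [h] using ce_ms (hr.eqv t) F
  · have hg' : Ms (r (t + 1)) g := fun ω ω' h => hg ω ω' (hr.mono t ω ω' h)
    simp only [if_neg ht.ne]
    rw [ce_orth hp (hr.eqv t) F hg]
    by_cases h : t + 1 = T
    · simp [h]
    · simp only [if_neg h]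
      exact ce_orth hp (hr.eqv _) F hg'


/-- the covariation of two martingales telescopes. -/
theorem Mart.cov {r : ℕ → Ω → Ω → Prop} {T : ℕ} {A X : ℕ → Ω → ℝ} (hA : Mart p r T A)
    (hX : Mart p r T X) :
    Ex p (fun ω => A T ω * X T ω) = Ex p (fun ω => A 0 ω * X 0 ω) +
      ∑ t ∈ range T, Ex p (fun ω => (A (t + 1) ω - A t ω) * (X (t + 1) ω - X t ω)) := by
  have key : ∀ t, t ≤ T → Ex p (fun ω => A t ω * X t ω) = Ex p (fun ω => A 0 ω * X 0 ω) +
      ∑ s ∈ range t, Ex p (fun ω => (A (s + 1) ω - A s ω) * (X (s + 1) ω - X s ω)) := by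
    intro t
    induction t with
    | zero => simp
    | succ t ih =>
      intro ht
      rw [sum_range_succ, ← add_assoc, ← ih (by omega)]
      have e1 := hA.orth t ht (X t) (hX.ms t (by omega))
      have e2 := hX.orth t ht (A t) (hA.ms t (by omega))
      have e3 : Ex p (fun ω => (A (t + 1) ω - A t ω) * (X (t + 1) ω - X t ω)) =
          Ex p (fun ω => A (t + 1) ω * X (t + 1) ω) - Ex p (fun ω => X t ω * A (t + 1) ω) -
            Ex p (fun ω => A t ω * X (t + 1) ω) + Ex p (fun ω => X t ω * A t ω) := by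
        rw [← Ex_sub, ← Ex_sub, ← Ex_add]
        congr 1; funext ω; ring
      rw [e3, e1, e2]; ring
  exact key T le_rfl

/-- the concave denominator of the Bellman function. -/
noncomputable def chi (q u : ℝ) : ℝ := u + q + q * u / (u + q)

theorem le_chi {q u : ℝ} (hq : 0 < q) (hu : 0 ≤ u) : u + q ≤ chi q u := by
  have : 0 ≤ q * u / (u + q) := by positivity
  unfold chi; linarith

/-- the tangent inequality of the Bellman function `x² / chi h`. -/
theorem bell {q h k : ℝ} (hq : 0 < q) (hh : 0 ≤ h) (hk : 0 ≤ k) (x y : ℝ) :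
    2 * (x / chi q h) * y - (x / chi q h) ^ 2 * (chi q h + (1 + q ^ 2 / (h + q) ^ 2) * (k - h)) +
      (if h ≤ q ∧ k ≤ q then (y - x) ^ 2 / (64 * q) else 0) ≤ y ^ 2 / chi q k := by
  have hc : 0 < chi q k := lt_of_lt_of_le (by positivity) (le_chi hq hk)
  have hch : 0 < chi q h := lt_of_lt_of_le (by positivity) (le_chi hq hh)
  set s := x / chi q h with hs
  have hx : x = s * chi q h := by rw [hs]; field_simp
  have hgap : chi q h + (1 + q ^ 2 / (h + q) ^ 2) * (k - h) =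
      chi q k + q ^ 2 * (k - h) ^ 2 / ((h + q) ^ 2 * (k + q)) := by
    unfold chi; field_simp; ring
  set gap := q ^ 2 * (k - h) ^ 2 / ((h + q) ^ 2 * (k + q)) with hg
  have hg0 : 0 ≤ gap := by positivity
  have hid : y ^ 2 / chi q k = 2 * s * y - s ^ 2 * (chi q k + gap) +
      ((y - s * chi q k) ^ 2 / chi q k + s ^ 2 * gap) := by
    field_simp; ring
  rw [hgap, hid]
  refine add_le_add_right ?_ _
  split_ifs with hcase
  · obtain ⟨h1, h2⟩ := hcase
    have hg1 : (k - h) ^ 2 ≤ 8 * q * gap := by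
      rw [hg, mul_div_assoc', le_div_iff₀ (by positivity)]
      have a1 : (h + q) ^ 2 ≤ (2 * q) ^ 2 := by gcongr; linarith
      have a2 : (h + q) ^ 2 * (k + q) ≤ (2 * q) ^ 2 * (2 * q) := by gcongr; linarith
      nlinarith [sq_nonneg (k - h)]
    have hd : (chi q k - chi q h) ^ 2 ≤ 4 * (k - h) ^ 2 := by
      have e : chi q k - chi q h = (1 + q ^ 2 / ((h + q) * (k + q))) * (k - h) := by
        unfold chi; field_simp; ring
      have b0 : 0 ≤ q ^ 2 / ((h + q) * (k + q)) := by positivity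
      have b1 : q ^ 2 / ((h + q) * (k + q)) ≤ 1 := by
        rw [div_le_one (by positivity)]; nlinarith [mul_nonneg hh hk]
      rw [e, mul_pow]
      gcongr
      nlinarith
    have hck : chi q k ≤ 3 * q := by
      have : q * k / (k + q) ≤ q := by
        rw [div_le_iff₀ (by positivity)]; nlinarith
      unfold chi; linarith
    set u := (y - s * chi q k) ^ 2 / chi q k with hu
    have hu0 : 0 ≤ u := by positivity
    have hu1 : (y - s * chi q k) ^ 2 ≤ 3 * q * u := by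
      have : (y - s * chi q k) ^ 2 = chi q k * u := by rw [hu]; field_simp
      rw [this]; gcongr
    rw [div_le_iff₀ (by positivity)]
    have e2 : y - x = (y - s * chi q k) + s * (chi q k - chi q h) := by rw [hx]; ring
    have e3 : (y - x) ^ 2 ≤ 2 * (y - s * chi q k) ^ 2 + 2 * (s ^ 2 * (chi q k - chi q h) ^ 2) := by
      rw [e2]; nlinarith [sq_nonneg ((y - s * chi q k) - s * (chi q k - chi q h))]
    have e4 : s ^ 2 * (chi q k - chi q h) ^ 2 ≤ s ^ 2 * (4 * (8 * q * gap)) := by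
      gcongr; linarith
    nlinarith [mul_nonneg hq.le hu0]
  · positivity

/-- **Lemma Z.** -/
theorem zeno (hp : ∀ ω, 0 ≤ p ω) {r : ℕ → Ω → Ω → Prop} (hr : Filt r) {T : ℕ} {q : ℝ}
    (hq : 0 < q) {h X : ℕ → Ω → ℝ} (hh : Mart p r T h) (h0 : ∀ t, t ≤ T → ∀ ω, 0 ≤ h t ω)
    (hX : Mart p r T X) (hX0 : ∀ ω, X 0 ω = 0)
    (hs : ∀ t, t < T → ∀ ω, X (t + 1) ω ≠ X t ω → h t ω ≤ q ∧ h (t + 1) ω ≤ q) :
    Ex p (fun ω => h T ω * X T ω ^ 2) ≤ 64 * q * Ex p (fun ω => X T ω ^ 2) := by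
  obtain ⟨A, hA, hAT⟩ := exists_mart hp hr T (F := fun ω => h T ω * X T ω) fun ω ω' e => by
    simp only [hh.ms T le_rfl ω ω' e, hX.ms T le_rfl ω ω' e]
  set B : ℕ → ℝ := fun t => Ex p fun ω => A t ω ^ 2 / chi q (h t ω) with hB
  set I : ℕ → ℝ := fun t => Ex p fun ω =>
    if h t ω ≤ q ∧ h (t + 1) ω ≤ q then (A (t + 1) ω - A t ω) ^ 2 / (64 * q) else 0 with hI
  have step : ∀ t, t < T → B t + I t ≤ B (t + 1) := by
    intro t ht
    have hm := Ex_mono hp fun ω => bell hq (h0 t ht.le ω) (h0 (t + 1) ht ω) (A t ω) (A (t + 1) ω)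
    refine le_trans (le_of_eq ?_) hm
    rw [Ex_add]
    congr 1
    have m1 : Ms (r t) fun ω => 2 * (A t ω / chi q (h t ω)) := fun ω ω' e => by
      simp only [hh.ms t ht.le ω ω' e, hA.ms t ht.le ω ω' e]
    have m2 : Ms (r t) fun ω => (A t ω / chi q (h t ω)) ^ 2 * (1 + q ^ 2 / (h t ω + q) ^ 2) :=
      fun ω ω' e => by simp only [hh.ms t ht.le ω ω' e, hA.ms t ht.le ω ω' e]
    have e1 := hA.orth t ht _ m1
    have e2 := hh.orth t ht _ m2
    have e3 : (Ex p fun ω => 2 * (A t ω / chi q (h t ω)) * A (t + 1) ω -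
        (A t ω / chi q (h t ω)) ^ 2 *
          (chi q (h t ω) + (1 + q ^ 2 / (h t ω + q) ^ 2) * (h (t + 1) ω - h t ω))) =
        (Ex p fun ω => 2 * (A t ω / chi q (h t ω)) * A (t + 1) ω) -
        (Ex p fun ω => (A t ω / chi q (h t ω)) ^ 2 * (1 + q ^ 2 / (h t ω + q) ^ 2) * h (t + 1) ω) +
        (Ex p fun ω => (A t ω / chi q (h t ω)) ^ 2 * (1 + q ^ 2 / (h t ω + q) ^ 2) * h t ω) -
        (Ex p fun ω => (A t ω / chi q (h t ω)) ^ 2 * chi q (h t ω)) := by
      rw [← Ex_sub, ← Ex_add, ← Ex_sub]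
      congr 1; funext ω; ring
    rw [e3, e1, e2, sub_add_cancel, ← Ex_sub]
    simp only [hB]
    congr 1; funext ω
    have hc : 0 < chi q (h t ω) :=
      lt_of_lt_of_le (by have := h0 t ht.le ω; positivity) (le_chi hq (h0 t ht.le ω))
    field_simp; ring
  have tel : ∀ t, t ≤ T → B 0 + ∑ s ∈ range t, I s ≤ B t := by
    intro t
    induction t with
    | zero => simp
    | succ t ih =>
      intro ht
      rw [sum_range_succ]
      linarith [ih (by omega), step t ht]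
  have hc0 : ∀ t, t ≤ T → ∀ ω, 0 < chi q (h t ω) := fun t ht ω =>
    lt_of_lt_of_le (by have := h0 t ht ω; positivity) (le_chi hq (h0 t ht ω))
  have hB0 : 0 ≤ B 0 := Ex_nonneg hp fun ω => by have := hc0 0 (Nat.zero_le T) ω; positivity
  set W := Ex p (fun ω => h T ω * X T ω ^ 2) with hW
  have hBT : B T ≤ W := by
    refine Ex_mono hp fun ω => ?_
    rw [hAT, div_le_iff₀ (hc0 T le_rfl ω)]
    have a1 := le_chi hq (h0 T le_rfl ω)
    have a2 : 0 ≤ h T ω * X T ω ^ 2 := mul_nonneg (h0 T le_rfl ω) (sq_nonneg _)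
    calc (h T ω * X T ω) ^ 2 = h T ω * X T ω ^ 2 * h T ω := by ring
      _ ≤ _ := by gcongr; linarith
  have c1 := hA.cov hX
  have c2 := hX.cov hX
  simp only [hX0, mul_zero] at c1 c2
  have z : Ex p (fun _ => (0 : ℝ)) = 0 := by simp [Ex]
  rw [z, zero_add] at c1 c2
  have w1 : W = Ex p (fun ω => A T ω * X T ω) := by
    rw [hW, hAT]; congr 1; funext ω; ring
  have w2 : Ex p (fun ω => X T ω ^ 2) = Ex p (fun ω => X T ω * X T ω) := by
    congr 1; funext ω; ring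
  have am : ∀ t ∈ range T, Ex p (fun ω => (A (t + 1) ω - A t ω) * (X (t + 1) ω - X t ω)) ≤
      I t / 2 + 32 * q * Ex p (fun ω => (X (t + 1) ω - X t ω) * (X (t + 1) ω - X t ω)) := by
    intro t ht
    rw [div_eq_inv_mul, hI]
    simp only
    rw [← Ex_smul, ← Ex_smul, ← Ex_add]
    refine Ex_mono hp fun ω => ?_
    by_cases e : X (t + 1) ω = X t ω
    · rw [e, sub_self, mul_zero, mul_zero, mul_zero, add_zero]
      split_ifs <;> positivity
    · rw [if_pos (hs t (mem_range.1 ht) ω e)]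
      set a := A (t + 1) ω - A t ω
      set b := X (t + 1) ω - X t ω
      have : 2⁻¹ * (a ^ 2 / (64 * q)) + 32 * q * (b * b) - a * b =
          (a - 64 * q * b) ^ 2 / (128 * q) := by field_simp; ring
      have h2 : 0 ≤ (a - 64 * q * b) ^ 2 / (128 * q) := by positivity
      linarith
  have hsum := sum_le_sum am
  rw [sum_add_distrib, ← sum_div, ← mul_sum, ← c1, ← c2, ← w1, ← w2] at hsum
  linarith [tel T le_rfl]

/-- martingale transform. -/
def tr {Ω : Type} (θ M : ℕ → Ω → ℝ) (t : ℕ) (ω : Ω) : ℝ :=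
  ∑ s ∈ range t, θ s ω * (M (s + 1) ω - M s ω)

theorem Filt.anti {Ω : Type} {r : ℕ → Ω → Ω → Prop} (hr : Filt r) {s t : ℕ} (h : s ≤ t) (ω ω' : Ω)
    (e : r t ω ω') : r s ω ω' := by
  induction h with
  | refl => exact e
  | step _ ih => exact ih (hr.mono _ ω ω' e)

theorem Mart.tr {r : ℕ → Ω → Ω → Prop} (hr : Filt r) {T : ℕ} {θ M : ℕ → Ω → ℝ}
    (hM : Mart p r T M) (hθ : ∀ t, t < T → Ms (r t) (θ t)) : Mart p r T (tr θ M) := by
  refine ⟨fun t ht ω ω' e => sum_congr rfl fun s hs => ?_, fun t ht g hg => ?_⟩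
  · have hs' := mem_range.1 hs
    rw [hθ s (by omega) ω ω' (hr.anti hs'.le _ _ e), hM.ms s (by omega) ω ω' (hr.anti hs'.le _ _ e),
      hM.ms (s + 1) (by omega) ω ω' (hr.anti hs' _ _ e)]
  · have e1 := hM.orth t ht (fun ω => g ω * θ t ω) fun ω ω' e => by
      simp only [hg ω ω' e, hθ t ht ω ω' e]
    have e2 : Ex p (fun ω => g ω * L4.tr θ M (t + 1) ω) = Ex p (fun ω => g ω * L4.tr θ M t ω) +
        (Ex p (fun ω => g ω * θ t ω * M (t + 1) ω) - Ex p (fun ω => g ω * θ t ω * M t ω)) := by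
      rw [← Ex_sub, ← Ex_add]
      congr 1; funext ω
      simp only [L4.tr, sum_range_succ]; ring
    rw [e2, e1, sub_self, add_zero]

theorem Mart.sub0 {r : ℕ → Ω → Ω → Prop} (hr : Filt r) {T : ℕ} {M : ℕ → Ω → ℝ}
    (hM : Mart p r T M) : Mart p r T fun t ω => M t ω - M 0 ω := by
  have h := hM.tr hr (θ := fun _ _ => 1) fun _ _ _ _ _ => rfl
  have e : L4.tr (fun _ _ => (1 : ℝ)) M = fun t ω => M t ω - M 0 ω := by
    funext t ω
    simp only [L4.tr, one_mul]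
    exact sum_range_sub (fun s => M s ω) t
  rwa [e] at h

/-- a transform with `|θ| ≤ 1` contracts the quadratic variation. -/
theorem tr_sq_le (hp : ∀ ω, 0 ≤ p ω) {r : ℕ → Ω → Ω → Prop} (hr : Filt r) {T : ℕ}
    {θ M : ℕ → Ω → ℝ} (hM : Mart p r T M) (hθ : ∀ t, t < T → Ms (r t) (θ t))
    (h1 : ∀ t ω, |θ t ω| ≤ 1) :
    Ex p (fun ω => tr θ M T ω ^ 2) ≤ Ex p (fun ω => (M T ω - M 0 ω) ^ 2) := by
  have c1 := (hM.tr hr hθ).cov (hM.tr hr hθ)
  have c2 := (hM.sub0 hr).cov (hM.sub0 hr)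
  have z : Ex p (fun _ => (0 : ℝ)) = 0 := by simp [Ex]
  have t0 : ∀ ω, tr θ M 0 ω = 0 := fun ω => by simp [tr]
  simp only [t0, sub_self, mul_zero, z, zero_add] at c1 c2
  simp only [pow_two]
  rw [c1, c2]
  refine sum_le_sum fun t _ => Ex_mono hp fun ω => ?_
  have e : tr θ M (t + 1) ω - tr θ M t ω = θ t ω * (M (t + 1) ω - M t ω) := by
    simp only [tr, sum_range_succ]; ring
  have a : θ t ω ^ 2 ≤ 1 := by rw [← sq_abs]; nlinarith [h1 t ω, abs_nonneg (θ t ω)]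
  rw [e]
  nlinarith [mul_le_mul_of_nonneg_right a (sq_nonneg (M (t + 1) ω - M t ω))]

/-- **Lemma Z** for a martingale transform switched on only while `h ≤ q`. -/
theorem zeno_tr (hp : ∀ ω, 0 ≤ p ω) {r : ℕ → Ω → Ω → Prop} (hr : Filt r) {T : ℕ} {q : ℝ}
    (hq : 0 < q) {h θ M : ℕ → Ω → ℝ} (hh : Mart p r T h) (h0 : ∀ t, t ≤ T → ∀ ω, 0 ≤ h t ω)
    (hM : Mart p r T M) (hθ : ∀ t, t < T → Ms (r t) (θ t)) (h1 : ∀ t ω, |θ t ω| ≤ 1)
    (hs : ∀ t, t < T → ∀ ω, θ t ω ≠ 0 → h t ω ≤ q ∧ h (t + 1) ω ≤ q) :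
    Ex p (fun ω => h T ω * tr θ M T ω ^ 2) ≤ 64 * q * Ex p (fun ω => (M T ω - M 0 ω) ^ 2) := by
  refine (zeno hp hr hq hh h0 (hM.tr hr hθ) (fun ω => by simp [tr]) fun t ht ω e => ?_).trans ?_
  · refine hs t ht ω fun z => e ?_
    simp only [tr, sum_range_succ, z, zero_mul, add_zero]
  · exact mul_le_mul_of_nonneg_left (tr_sq_le hp hr hM hθ h1) (by positivity)

end Crest.Agent.N337.L4
end

-- ▼ part N337/L4/Grp
section

/-!
# Row 337, L4: groups of cells, explorers as filtrations, Schramm-Steif bound for chosen steps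

`gr : ι → κ` sends a (fine) cell to its group, `G` is the set of active groups.  The cells of the
other groups are free.  `Expl.ss_tr`: the increments of `E[g | F_t]` in a predictable set of steps
cost the influences of the groups revealed in those steps.
-/

set_option autoImplicit false
set_option linter.unusedSectionVars false

namespace Crest.Agent.N337.PH

open Finset L4

variable {ι : Type} [Fintype ι] [DecidableEq ι] {E : ι → Type} [∀ i, Fintype (E i)]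
  {κ : Type} [Fintype κ] [DecidableEq κ]

/-- the cells of the groups in `U`. -/
def pre (gr : ι → κ) (U : Finset κ) : Finset ι := univ.filter fun i => gr i ∈ U

@[simp] lemma mem_pre {gr : ι → κ} {U : Finset κ} {i : ι} : i ∈ pre gr U ↔ gr i ∈ U := by
  simp [pre]

/-- the active groups met by `A`. -/
def mt (gr : ι → κ) (G : Finset κ) (A : Finset ι) : Finset κ := A.image gr ∩ G

lemma mem_mt {gr : ι → κ} {G : Finset κ} {A : Finset ι} {γ : κ} :
    γ ∈ mt gr G A ↔ (∃ i ∈ A, gr i = γ) ∧ γ ∈ G := by simp [mt]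

/-- `A` contains every active group that it meets. -/
def Cl (gr : ι → κ) (G : Finset κ) (A : Finset ι) : Prop :=
  ∀ i ∈ A, gr i ∈ G → ∀ j, gr j = gr i → j ∈ A

/-- influence of a group. -/
def DG (p : ∀ i, E i → ℝ) (gr : ι → κ) (γ : κ) (f : (∀ i, E i) → ℝ) (ω : ∀ i, E i) : ℝ :=
  f ω - C p (pre gr {γ})ᶜ f ω

variable {p : ∀ i, E i → ℝ} {f g : (∀ i, E i) → ℝ} {X : ℕ → (∀ i, E i) → Finset ι}
  {gr : ι → κ} {G : Finset κ} {R R' : (∀ i, E i) → Finset ι}

lemma Cl.union {A B : Finset ι} (hA : Cl gr G A) (hB : Cl gr G B) : Cl gr G (A ∪ B) := by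
  intro i hi hG j e
  rcases mem_union.1 hi with h | h
  · exact mem_union_left _ (hA i h hG j e)
  · exact mem_union_right _ (hB i h hG j e)

lemma cl_pre (U : Finset κ) : Cl gr G (pre gr U) := fun i hi _ j e => by
  rw [mem_pre] at hi ⊢; rwa [e]

lemma subset_pre {S : Finset ι} {U : Finset κ} : S ⊆ pre gr U ↔ S.image gr ⊆ U := by
  simp [subset_iff]

lemma subset_compl_pre {S : Finset ι} {γ : κ} : S ⊆ (pre gr {γ})ᶜ ↔ γ ∉ S.image gr := by
  simp [subset_iff]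

lemma Pr.DG_Mu (hp : Pr p) (γ : κ) (a : Finset ι → ℝ) (f : (∀ i, E i) → ℝ) :
    DG p gr γ (Mu p a f) = Mu p (fun S => if γ ∈ S.image gr then a S else 0) f := by
  ext ω
  rw [DG, hp.C_Mu, Mu_sub]
  congr 1; ext S
  simp only [subset_compl_pre]; by_cases h : γ ∈ S.image gr <;> simp only [h] <;> simp

lemma Pr.sum_nsq_DG (hp : Pr p) (V : Finset κ) (a : Finset ι → ℝ) (f : (∀ i, E i) → ℝ) :
    ∑ γ ∈ V, nsq p (DG p gr γ (Mu p a f)) =
      ∑ S, (V ∩ S.image gr).card * a S ^ 2 * nsq p (hf p S f) := by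
  simp only [hp.DG_Mu, hp.nsq_Mu]
  rw [sum_comm]
  refine sum_congr rfl fun S _ => ?_
  rw [← sum_mul]
  congr 1
  simp only [ite_pow, ne_eq, OfNat.ofNat_ne_zero, not_false_eq_true, zero_pow]
  rw [← sum_filter, filter_mem_eq_inter, sum_const, nsmul_eq_mul]

/-- Efron-Stein with groups. -/
theorem Pr.es_g (hp : Pr p) {A B : Finset ι} (h : A ⊆ B) (f : (∀ i, E i) → ℝ) :
    nsq p (fun ω => C p B f ω - C p A f ω) ≤ ∑ γ ∈ (B \ A).image gr, nsq p (DG p gr γ f) := by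
  rw [hp.eq_Mu f, hp.sum_nsq_DG, hp.C_Mu, hp.C_Mu]
  simp only [Mu_sub]
  rw [hp.nsq_Mu]
  refine sum_le_sum fun S _ => mul_le_mul_of_nonneg_right ?_ (hp.nsq_nn _)
  by_cases hA : S ⊆ A
  · simp [hA, hA.trans h]
  by_cases hB : S ⊆ B
  · obtain ⟨c, hc, ha⟩ := not_subset.1 hA
    have : 1 ≤ ((B \ A).image gr ∩ S.image gr).card := card_pos.2 ⟨gr c,
      mem_inter.2 ⟨mem_image_of_mem _ (mem_sdiff.2 ⟨hB hc, ha⟩), mem_image_of_mem _ hc⟩⟩
    simpa [hA, hB] using (by exact_mod_cast this : (1 : ℝ) ≤ ((B \ A).image gr ∩ S.image gr).card)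
  · simp [hA, hB]


lemma Meas.C_inter (hp : Pr p) {J : Finset ι} (hg : Meas (fun _ => J) g) (B : Finset ι)
    (ω : ∀ i, E i) : C p B g ω = C p (B ∩ J) g ω := by
  rw [← hp.C_C]
  congr 1
  exact funext fun η => (hg.P_eq hp η).symm

lemma Pr.es_wg (hp : Pr p) {A B : Finset ι} (h : A ⊆ B) (hA : Cl gr G A)
    (hf : Meas (fun _ => A) f) (hg : Meas (fun _ => pre gr G) g) :
    ex p (fun ω => f ω ^ 2 * (C p B g ω - C p A g ω) ^ 2) ≤
      ∑ γ ∈ mt gr G (B \ A), ex p fun ω => f ω ^ 2 * DG p gr γ g ω ^ 2 := by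
  have e : ∀ ω, C p B g ω = C p (A ∪ B ∩ pre gr G) g ω := fun ω => by
    rw [hg.C_inter hp B, hg.C_inter hp (A ∪ _)]
    congr 1; ext i
    simp only [mem_inter, mem_union]
    have := @h i
    tauto
  have e2 : ((A ∪ B ∩ pre gr G) \ A).image gr = mt gr G (B \ A) := by
    ext γ
    simp only [mem_mt, mem_image, mem_sdiff, mem_union, mem_inter, mem_pre]
    constructor
    · rintro ⟨i, ⟨h1, h2⟩, rfl⟩
      have := h1.resolve_left h2
      exact ⟨⟨i, ⟨this.1, h2⟩, rfl⟩, this.2⟩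
    · rintro ⟨⟨i, ⟨h1, h2⟩, rfl⟩, h3⟩
      exact ⟨i, ⟨Or.inr ⟨h1, h3⟩, h2⟩, rfl⟩
  have k := hp.es_g (gr := gr) (subset_union_left (s₁ := A) (s₂ := B ∩ pre gr G))
    fun ω => f ω * g ω
  have hB : Meas (fun _ => A ∪ B ∩ pre gr G) f := hf.mono fun _ => subset_union_left
  simp only [e]
  rw [e2] at k
  simp only [C, hf.P_mul, hB.P_mul, nsq, ← mul_sub, mul_pow] at k
  refine k.trans (le_of_eq (sum_congr rfl fun γ hγ => ?_))
  have hc' : Meas (fun _ => (pre gr {γ})ᶜ) f := hf.mono fun _ i hi => by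
    obtain ⟨⟨j, hj, rfl⟩, h2⟩ := mem_mt.1 hγ
    simp only [mem_compl, mem_pre, mem_singleton]
    exact fun e => (mem_sdiff.1 hj).2 (hA i hi (e ▸ h2) j e.symm)
  simp only [DG, C, hc'.P_mul, ← mul_sub, mul_pow]

/-- one predictable step with a predictable weight. -/
lemma Pr.step_g (hp : Pr p) (hR : Stop R) (h : ∀ ω, R ω ⊆ R' ω)
    (h' : ∀ ω ω', (∀ i ∈ R ω, ω' i = ω i) → R' ω' = R' ω) (hc : ∀ ω, Cl gr G (R ω))
    (hf : Meas R f) (hg : Meas (fun _ => pre gr G) g) :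
    ex p (fun ω => f ω ^ 2 * (P p R' g ω - P p R g ω) ^ 2) ≤
      ex p fun ω => f ω ^ 2 * ∑ γ ∈ mt gr G (R' ω \ R ω), DG p gr γ g ω ^ 2 := by
  set I : Finset ι × Finset ι → (∀ i, E i) → ℝ := fun x ω => if x = (R ω, R' ω) then f ω else 0
  have hI : ∀ x, Meas (fun _ => x.1) (I x) := by
    rintro ⟨A, B⟩ ω ω' e
    simp only [I, Prod.mk.injEq]
    by_cases h1 : A = R ω
    · subst h1; rw [hR ω ω' e, h' ω ω' e, hf ω ω' e]
    · rw [if_neg (c := A = R ω ∧ B = R' ω) fun k => h1 k.1, if_neg]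
      rintro ⟨rfl, -⟩
      exact h1 (hR ω' ω fun i hi => (e i hi).symm).symm
  have e1 : (fun ω => f ω ^ 2 * (P p R' g ω - P p R g ω) ^ 2) =
      fun ω => ∑ x, I x ω ^ 2 * (C p x.2 g ω - C p x.1 g ω) ^ 2 := by
    ext ω; simp [I, P_eq_C]
  have e2 : (fun ω => f ω ^ 2 * ∑ γ ∈ mt gr G (R' ω \ R ω), DG p gr γ g ω ^ 2) =
      fun ω => ∑ x, ∑ γ ∈ mt gr G (x.2 \ x.1), I x ω ^ 2 * DG p gr γ g ω ^ 2 := by
    ext ω; simp [I, ← mul_sum]
  rw [e1, e2, ex_sum, ex_sum]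
  refine sum_le_sum fun x _ => ?_
  rw [ex_sum]
  by_cases hx : ∃ ω, x = (R ω, R' ω)
  · obtain ⟨ω, rfl⟩ := hx
    exact hp.es_wg (h ω) (hc ω) (hI _) hg
  · have : ∀ ω, I x ω = 0 := fun ω => if_neg fun k => hx ⟨ω, k⟩
    simp [this, ex]

/-- pointwise tower property. -/
lemma Stop.tower (hp : Pr p) (hR : Stop R) (hR' : Stop R') (h : ∀ ω, R ω ⊆ R' ω)
    (f : (∀ i, E i) → ℝ) (ω : ∀ i, E i) : P p R (P p R' f) ω = P p R f ω := by
  have hs : Stop fun η => R' (pw (R ω) ω η) := fun η η' e => hR' _ _ fun i hi => by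
    by_cases k : i ∈ R ω
    · simp [k]
    · simp [k, e i hi]
  have k := hs.ex_P hp fun η => f (pw (R ω) ω η)
  refine Eq.trans ?_ k
  refine sum_congr rfl fun η _ => ?_
  congr 1
  refine sum_congr rfl fun η' _ => ?_
  congr 2; ext i
  by_cases a : i ∈ R ω
  · have : i ∈ R' (pw (R ω) ω η) := h _ (by rwa [hR.pw_eq])
    simp [a, this]
  · by_cases b : i ∈ R' (pw (R ω) ω η) <;> simp [a, b]

/-- a bound on the conditional expectation given more cells, valid on a measurable event. -/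
lemma Stop.P_le (hp : Pr p) (hR : Stop R) (hR' : Stop R') (h : ∀ ω, R ω ⊆ R' ω) {q : ℝ}
    (ω : ∀ i, E i) (hq : ∀ η, (∀ i ∈ R ω, η i = ω i) → P p R' f η ≤ q) : P p R f ω ≤ q := by
  rw [← hR.tower hp hR' h, ← hp.ex_const q]
  exact hp.ex_mono (f := fun η => P p R' f (pw (R ω) ω η)) fun η => hq _ fun i hi => pw_mem _ _ hi

/-- the filtration of an explorer. -/
def rl (X : ℕ → (∀ i, E i) → Finset ι) (t : ℕ) (ω ω' : ∀ i, E i) : Prop := ∀ i ∈ X t ω, ω' i = ω i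

lemma Expl.filt (h : Expl X) : Filt (rl X) := by
  refine ⟨fun t => ⟨fun _ _ _ => rfl, fun {ω ω'} e i hi => ?_, fun {ω ω' η} e e' i hi => ?_⟩,
    fun t ω ω' e i hi => e i (h.mono t ω hi)⟩
  · exact (e i (h.stop t ω ω' e ▸ hi)).symm
  · rw [e' i (by rwa [h.stop t ω ω' e]), e i hi]

lemma ms_iff {t : ℕ} : Ms (rl X t) f ↔ Meas (X t) f :=
  ⟨fun h ω ω' e => (h ω ω' e).symm, fun h ω ω' e => (h ω ω' e).symm⟩

lemma Expl.mart (hp : Pr p) (h : Expl X) (T : ℕ) (f : (∀ i, E i) → ℝ) :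
    Mart (w p) (rl X) T fun t => P p (X t) f := by
  refine ⟨fun t _ => ms_iff.2 ((h.stop t).meas_P f), fun t _ g hg => ?_⟩
  have a := (h.stop t).ex_mul_P hp (ms_iff.1 hg) f
  have b := (h.stop (t + 1)).ex_mul_P hp ((ms_iff.1 hg).mono (h.mono t)) f
  exact b.trans a.symm

variable {ψ : ℕ → (∀ i, E i) → ℝ} {T : ℕ}

lemma Expl.meas_tr (hp : Pr p) (h : Expl X) (hψ : ∀ t, t < T → Meas (X t) (ψ t))
    (f : (∀ i, E i) → ℝ) : Meas (X T) (tr ψ (fun t => P p (X t) f) T) :=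
  ms_iff.1 (((h.mart hp T f).tr h.filt fun t ht => ms_iff.2 (hψ t ht)).ms T le_rfl)

/-- transforms of two martingales: the covariation. -/
lemma Expl.ex_tr_tr (hp : Pr p) (h : Expl X) {χ : ℕ → (∀ i, E i) → ℝ}
    (hψ : ∀ t, t < T → Meas (X t) (ψ t)) (hχ : ∀ t, t < T → Meas (X t) (χ t))
    (f g : (∀ i, E i) → ℝ) :
    ex p (fun ω => tr ψ (fun t => P p (X t) f) T ω * tr χ (fun t => P p (X t) g) T ω) =
      ∑ t ∈ range T, ex p fun ω => ψ t ω * χ t ω *
        ((P p (X (t + 1)) f ω - P p (X t) f ω) * (P p (X (t + 1)) g ω - P p (X t) g ω)) := by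
  have c := ((h.mart hp T f).tr h.filt fun t ht => ms_iff.2 (hψ t ht)).cov
    ((h.mart hp T g).tr h.filt fun t ht => ms_iff.2 (hχ t ht))
  refine Eq.trans c ?_
  simp only [tr, range_zero, sum_empty, mul_zero, sum_range_succ, add_sub_cancel_left]
  rw [show Ex (w p) (fun _ : ∀ i, E i => (0 : ℝ)) = 0 by simp [Ex], zero_add]
  refine sum_congr rfl fun t _ => ?_
  change ex p _ = _
  congr 1; ext ω; ring

/-- **Schramm-Steif bound for a predictable set of steps.** -/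
theorem Expl.ss_tr (hp : Pr p) (h : Expl X) (hc : ∀ t ω, Cl gr G (X t ω))
    (hψ : ∀ t, t < T → Meas (X t) (ψ t)) (h1 : ∀ t ω, |ψ t ω| ≤ 1) (L : (∀ i, E i) → Finset κ)
    (hL : ∀ t, t < T → ∀ ω, ψ t ω ≠ 0 → mt gr G (X (t + 1) ω \ X t ω) ⊆ L ω)
    (hg : Meas (fun _ => pre gr G) g) :
    nsq p (tr ψ (fun t => P p (X t) g) T) ≤ ex p fun ω => ∑ γ ∈ L ω, DG p gr γ g ω ^ 2 := by
  have c := h.ex_tr_tr hp hψ hψ g g
  simp only [← sq] at c
  rw [nsq, c]
  refine (sum_le_sum fun t ht => hp.step_g (h.stop t) (h.mono t) (h.pred t) (hc t)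
    (hψ t (mem_range.1 ht)) hg).trans ?_
  rw [← ex_sum]
  refine hp.ex_mono fun ω => ?_
  have k : ∀ n, n ≤ T → ∑ t ∈ range n, ψ t ω ^ 2 * ∑ γ ∈ mt gr G (X (t + 1) ω \ X t ω),
      DG p gr γ g ω ^ 2 ≤ ∑ γ ∈ L ω ∩ mt gr G (X n ω), DG p gr γ g ω ^ 2 := by
    intro n
    induction n with
    | zero => intro _; simpa using sum_nonneg fun _ _ => sq_nonneg _
    | succ n ih =>
      intro hn
      have sub : mt gr G (X n ω) ⊆ mt gr G (X (n + 1) ω) :=
        inter_subset_inter_right (image_subset_image (h.mono n ω))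
      rw [sum_range_succ]
      by_cases z : ψ n ω = 0
      · simp only [z, ne_eq, OfNat.ofNat_ne_zero, not_false_eq_true, zero_pow, zero_mul, add_zero]
        exact (ih (by omega)).trans (sum_le_sum_of_subset_of_nonneg
          (inter_subset_inter_left sub) fun _ _ _ => sq_nonneg _)
      have a : ψ n ω ^ 2 ≤ 1 := by rw [← sq_abs]; nlinarith [h1 n ω, abs_nonneg (ψ n ω)]
      have b := mul_le_of_le_one_left (sum_nonneg (s := mt gr G (X (n + 1) ω \ X n ω))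
        fun γ _ => sq_nonneg (DG p gr γ g ω)) a
      refine (add_le_add (ih (by omega)) b).trans ?_
      rw [← sum_union]
      · refine sum_le_sum_of_subset_of_nonneg (union_subset (inter_subset_inter_left sub)
          (subset_inter (hL n hn ω z) ?_)) fun _ _ _ => sq_nonneg _
        exact inter_subset_inter_right (image_subset_image sdiff_subset)
      · refine disjoint_left.2 fun γ h1 h2 => ?_
        obtain ⟨⟨i, hi, rfl⟩, hG⟩ := mem_mt.1 (mem_inter.1 h1).2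
        obtain ⟨⟨j, hj, e⟩, -⟩ := mem_mt.1 h2
        exact (mem_sdiff.1 hj).2 (hc n ω i hi hG j e)
  exact (k T le_rfl).trans
    (sum_le_sum_of_subset_of_nonneg inter_subset_left fun _ _ _ => sq_nonneg _)

lemma tr_add_tr {Ω : Type} (θ M : ℕ → Ω → ℝ) (T : ℕ) (ω : Ω) :
    tr θ M T ω + tr (fun t ω => 1 - θ t ω) M T ω = M T ω - M 0 ω := by
  rw [← sum_range_sub (fun s => M s ω) T, tr, tr, ← sum_add_distrib]
  exact sum_congr rfl fun _ _ => by ring

lemma tr_one {Ω : Type} (M : ℕ → Ω → ℝ) (T : ℕ) (ω : Ω) :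
    tr (fun _ _ => 1) M T ω = M T ω - M 0 ω := by
  simp only [tr, one_mul]; exact sum_range_sub (fun s => M s ω) T

/-- Lemma Z for an explorer: `e ≥ 0` need not be measurable. -/
theorem Expl.zeno (hp : Pr p) (h : Expl X) {q : ℝ} (hq : 0 < q) {e : (∀ i, E i) → ℝ}
    (he : ∀ ω, 0 ≤ e ω) (hψ : ∀ t, t < T → Meas (X t) (ψ t)) (h1 : ∀ t ω, |ψ t ω| ≤ 1)
    (hs : ∀ t, t < T → ∀ ω, ψ t ω ≠ 0 → P p (X t) e ω ≤ q ∧ P p (X (t + 1)) e ω ≤ q)
    (g : (∀ i, E i) → ℝ) :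
    ex p (fun ω => e ω * tr ψ (fun t => P p (X t) g) T ω ^ 2) ≤
      64 * q * nsq p fun ω => P p (X T) g ω - P p (X 0) g ω := by
  have z := zeno_tr hp.w_nn h.filt hq (h.mart hp T e) (fun t _ ω => hp.P_nn he ω) (h.mart hp T g)
    (fun t ht => ms_iff.2 (hψ t ht)) h1 hs
  have m := h.meas_tr hp hψ g
  have k := (h.stop T).ex_mul_P hp (m.mul m) e
  simp only [← sq, mul_comm (_ ^ 2)] at k
  rw [← k]; exact z

/-- weighted Cauchy-Schwarz over a family. -/
lemma Pr.cs_sum (hp : Pr p) {α : Type} (s : Finset α) {ρ : α → ℝ} (hρ : ∀ a ∈ s, 0 < ρ a)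
    (u v : α → (∀ i, E i) → ℝ) : (∑ a ∈ s, ex p fun ω => u a ω * v a ω) ^ 2 ≤
      (∑ a ∈ s, nsq p (u a) / ρ a) * ∑ a ∈ s, ρ a * nsq p (v a) := by
  refine sum_sq_le_sum_mul_sum_of_sq_le_mul _ (fun a ha => div_nonneg (hp.nsq_nn _) (hρ a ha).le)
    (fun a ha => mul_nonneg (hρ a ha).le (hp.nsq_nn _)) fun a ha => (hp.cs _ _).trans (le_of_eq ?_)
  have := (hρ a ha).ne'
  field_simp

end Crest.Agent.N337.PH
end

-- ▼ part N337/L4/ZS
section

/-!
# Row 337, L4: the Zeno-Shearer lemma `Pr.zs` and the grouped Shearer inequality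

Explorers `Y a` reveal cells; the active groups `G` are revealed as a whole.  `h` is any function of
the active groups, `φ a` is a function of the cells revealed by `Y a`.  In the *early* steps
(`θ a t ω`) the chance of the event `e a`, given the revealed cells and ALL active groups, is at
most `q`; the other steps reveal only groups of `L a ω`.  Then the correlation of `∑ φ a` with `h`
gains the factor `q m + m'` up to the part of `φ a` off `e a`.
-/

set_option autoImplicit false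
set_option linter.unusedSectionVars false

namespace Crest.Agent.N337.PH

open Finset L4

variable {ι : Type} [Fintype ι] [DecidableEq ι] {E : ι → Type} [∀ i, Fintype (E i)]
  {κ : Type} [Fintype κ] [DecidableEq κ] {α : Type}

/-- data and hypotheses of the Zeno-Shearer lemma. -/
structure ZS (p : ∀ i, E i → ℝ) (gr : ι → κ) (G : Finset κ) (s : Finset α) (ρ : α → ℝ)
    (Y : α → ℕ → (∀ i, E i) → Finset ι) (T : ℕ) (e : α → (∀ i, E i) → ℝ)
    (q m m' : ℝ) (N : ℕ) : Prop where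
  expl : ∀ a ∈ s, Expl (Y a)
  zero : ∀ a ∈ s, ∀ ω, Y a 0 ω = ∅
  cl : ∀ a ∈ s, ∀ t ω, Cl gr G (Y a t ω)
  pos : ∀ a ∈ s, 0 < ρ a
  e0 : ∀ a ∈ s, ∀ ω, 0 ≤ e a ω
  e1 : ∀ a ∈ s, ∀ ω, e a ω ≤ 1
  q0 : 0 < q
  m0 : 0 ≤ m
  m0' : 0 ≤ m'
  mult : ∀ ω, ∀ γ ∈ G, ∑ a ∈ s, (if γ ∈ mt gr G (Y a T ω) then ρ a else 0) ≤ m
  card : ∀ a ∈ s, ∀ ω, (mt gr G (Y a T ω)).card ≤ N
  split : ∃ (θ : α → ℕ → (∀ i, E i) → Prop) (L : α → (∀ i, E i) → Finset κ),
    (∀ a ∈ s, ∀ t, t < T → ∀ ω ω', (∀ i ∈ Y a t ω, ω' i = ω i) → (θ a t ω' ↔ θ a t ω)) ∧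
    (∀ a ∈ s, ∀ t, t < T → ∀ ω, θ a t ω → P p (fun η => Y a t η ∪ pre gr G) (e a) ω ≤ q ∧
      P p (fun η => Y a (t + 1) η ∪ pre gr G) (e a) ω ≤ q) ∧
    (∀ a ∈ s, ∀ t, t < T → ∀ ω, ¬ θ a t ω → mt gr G (Y a (t + 1) ω \ Y a t ω) ⊆ L a ω) ∧
    ∀ ω, ∀ γ ∈ G, ∑ a ∈ s, (if γ ∈ L a ω then ρ a else 0) ≤ m'

variable {p : ∀ i, E i → ℝ} {gr : ι → κ} {G : Finset κ} {s : Finset α} {ρ : α → ℝ}
  {Y : α → ℕ → (∀ i, E i) → Finset ι} {T : ℕ} {e φ : α → (∀ i, E i) → ℝ} {q m m' : ℝ} {N : ℕ}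
  {g h : (∀ i, E i) → ℝ}

lemma Pr.mult_le (hp : Pr p) (L : α → (∀ i, E i) → Finset κ) (U : Finset κ) (hm0 : 0 ≤ m)
    (hm : ∀ ω, ∀ γ ∈ G, ∑ a ∈ s, (if γ ∈ L a ω then ρ a else 0) ≤ m) (F : κ → (∀ i, E i) → ℝ) :
    ∑ a ∈ s, ρ a * ex p (fun ω => ∑ γ ∈ U ∩ G ∩ L a ω, F γ ω ^ 2) ≤ m * ∑ γ ∈ U, nsq p (F γ) := by
  simp only [nsq, ← ex_mul]
  rw [← ex_sum, ← ex_sum, ← ex_mul]
  refine hp.ex_mono fun ω => ?_
  calc _ = ∑ γ ∈ U ∩ G, (∑ a ∈ s, if γ ∈ L a ω then ρ a else 0) * F γ ω ^ 2 := by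
        simp only [sum_mul]
        rw [sum_comm]
        refine sum_congr rfl fun a _ => ?_
        rw [← filter_mem_eq_inter (s := U ∩ G), sum_filter, mul_sum]
        exact sum_congr rfl fun γ _ => by split_ifs <;> simp
    _ ≤ ∑ γ ∈ U ∩ G, m * F γ ω ^ 2 := sum_le_sum fun γ hγ =>
        mul_le_mul_of_nonneg_right (hm ω γ (mem_inter.1 hγ).2) (sq_nonneg _)
    _ ≤ _ := by
        rw [mul_sum]
        exact sum_le_sum_of_subset_of_nonneg inter_subset_left fun _ _ _ => by positivity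

lemma mt_sub {A B : Finset ι} (U : Finset κ) :
    mt gr G ((B ∪ pre gr (G \ U)) \ (A ∪ pre gr (G \ U))) ⊆ U ∩ G ∩ mt gr G (B \ A) := by
  intro γ hγ
  obtain ⟨⟨i, hi, rfl⟩, hG⟩ := mem_mt.1 hγ
  simp only [mem_sdiff, mem_union, mem_pre, not_or, not_and, not_not] at hi
  refine mem_inter.2 ⟨mem_inter.2 ⟨hi.2.2 hG, hG⟩, mem_mt.2 ⟨⟨i, mem_sdiff.2 ⟨?_, hi.2.1⟩, rfl⟩, hG⟩⟩
  exact hi.1.resolve_right fun k => k.2 (hi.2.2 hG)

/-- the cost of the tests. -/
noncomputable def cost (p : ∀ i, E i → ℝ) (s : Finset α) (ρ : α → ℝ)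
    (e φ : α → (∀ i, E i) → ℝ) (q m m' : ℝ) : ℝ :=
  (64 * q * m + m') * ∑ a ∈ s, nsq p (φ a) / ρ a +
    m * ∑ a ∈ s, nsq p (fun ω => φ a ω * (1 - e a ω)) / ρ a

lemma ZS.cost_nn (hp : Pr p) (H : ZS p gr G s ρ Y T e q m m' N) : 0 ≤ cost p s ρ e φ q m m' := by
  have := H.q0; have := H.m0; have := H.m0'
  have a := sum_nonneg fun a ha => div_nonneg (hp.nsq_nn (φ a)) (H.pos a ha).le
  have b := sum_nonneg fun a ha =>
    div_nonneg (hp.nsq_nn fun ω => φ a ω * (1 - e a ω)) (H.pos a ha).le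
  unfold cost; positivity

/-- functions of conditional mean zero given the active groups off `U`. -/
theorem ZS.zs_U (hp : Pr p) (H : ZS p gr G s ρ Y T e q m m' N)
    (hφ : ∀ a ∈ s, Meas (Y a T) (φ a)) (U : Finset κ) (hg : Meas (fun _ => pre gr G) g)
    (hU : ∀ ω, C p (pre gr (G \ U)) g ω = 0) :
    (∑ a ∈ s, ex p fun ω => φ a ω * g ω) ^ 2 ≤
      3 * cost p s ρ e φ q m m' * ∑ γ ∈ U, nsq p (DG p gr γ g) := by
  classical
  obtain ⟨θ, L, hθ, hq, hL, hm'⟩ := H.split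
  set X : α → ℕ → (∀ i, E i) → Finset ι := fun a t ω => Y a t ω ∪ pre gr (G \ U) with hX
  have eX : ∀ a ∈ s, Expl (X a) := fun a ha => (H.expl a ha).union _
  have cX : ∀ a ∈ s, ∀ t ω, Cl gr G (X a t ω) := fun a ha t ω => (H.cl a ha t ω).union (cl_pre _)
  set ψ : α → ℕ → (∀ i, E i) → ℝ := fun a t ω => if θ a t ω then 1 else 0 with hψ
  have mψ : ∀ a ∈ s, ∀ t, t < T → Meas (X a t) (ψ a t) := fun a ha t ht ω ω' k => by
    simp only [ψ, hθ a ha t ht ω ω' fun i hi => k i (mem_union_left _ hi)]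
  set M : α → ℕ → (∀ i, E i) → ℝ := fun a t => P p (X a t) g with hM
  have M0 : ∀ a ∈ s, ∀ ω, M a 0 ω = 0 := fun a ha ω => by
    simp only [M, X, P_eq_C, H.zero a ha, empty_union, hU]
  set W := ∑ γ ∈ U, nsq p (DG p gr γ g) with hW
  have W0 : 0 ≤ W := sum_nonneg fun _ _ => hp.nsq_nn _
  have full : ∑ a ∈ s, ρ a * nsq p (M a T) ≤ m * W := by
    refine le_trans (sum_le_sum fun a ha => mul_le_mul_of_nonneg_left ?_ (H.pos a ha).le)
      (hp.mult_le (fun a ω => mt gr G (Y a T ω)) U H.m0 H.mult _)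
    have k := (eX a ha).ss_tr hp (T := T) (ψ := fun _ _ => 1) (cX a ha) (fun _ _ => meas_const 1)
      (fun _ _ => by simp) (fun ω => U ∩ G ∩ mt gr G (Y a T ω)) (fun t ht ω _ => (mt_sub U).trans
        (inter_subset_inter_left (inter_subset_inter_right (image_subset_image
          (sdiff_subset.trans ((H.expl a ha).le ht ω)))))) hg
    refine le_trans (le_of_eq ?_) k
    congr 1; ext ω
    rw [tr_one]; exact (sub_eq_self.2 (M0 a ha ω)).symm
  have late : ∑ a ∈ s, ρ a * nsq p (fun ω => e a ω * tr (fun t ω => 1 - ψ a t ω) (M a) T ω) ≤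
      m' * W := by
    refine le_trans (sum_le_sum fun a ha => mul_le_mul_of_nonneg_left ?_ (H.pos a ha).le)
      (hp.mult_le L U H.m0' hm' _)
    refine le_trans (hp.ex_mono fun ω => ?_) ((eX a ha).ss_tr hp (T := T)
      (ψ := fun t ω => 1 - ψ a t ω) (cX a ha) (fun t ht => (meas_const 1).sub (mψ a ha t ht))
      (fun t ω => by simp only [ψ]; split_ifs <;> simp) (fun ω => U ∩ G ∩ L a ω)
      (fun t ht ω z => (mt_sub U).trans (inter_subset_inter_left (hL a ha t ht ω fun k => z ?_))) hg)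
    · rw [mul_pow]
      exact mul_le_of_le_one_left (sq_nonneg _) (pow_le_one₀ (H.e0 a ha ω) (H.e1 a ha ω))
    · simp [ψ, k]
  have early : ∑ a ∈ s, ρ a * nsq p (fun ω => e a ω * tr (ψ a) (M a) T ω) ≤ 64 * q * m * W := by
    have q0 := H.q0
    rw [mul_assoc (64 * q)]
    refine le_trans ?_ (mul_le_mul_of_nonneg_left full (by positivity))
    rw [mul_sum]
    refine sum_le_sum fun a ha => ?_
    rw [mul_left_comm]
    refine mul_le_mul_of_nonneg_left ?_ (H.pos a ha).le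
    have sub : ∀ t ω, X a t ω ⊆ Y a t ω ∪ pre gr G := fun t ω =>
      union_subset_union_right fun i hi => mem_pre.2 (mem_sdiff.1 (mem_pre.1 hi)).1
    have z := (eX a ha).zeno hp q0 (H.e0 a ha) (mψ a ha)
      (fun t ω => by simp only [ψ]; split_ifs <;> simp) (fun t ht ω z => by
        have k : θ a t ω := by by_contra k; simp [ψ, k] at z
        have k' : ∀ η, (∀ i ∈ X a t ω, η i = ω i) → θ a t η := fun η b =>
          (hθ a ha t ht ω η fun i hi => b i (mem_union_left _ hi)).2 k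
        exact ⟨((eX a ha).stop t).P_le hp (((H.expl a ha).union _).stop t) (sub t) ω
            fun η b => (hq a ha t ht η (k' η b)).1,
          ((eX a ha).stop (t + 1)).P_le hp (((H.expl a ha).union _).stop (t + 1)) (sub (t + 1)) ω
            fun η b => (hq a ha t ht η (k' η fun i hi => b i ((eX a ha).mono t ω hi))).2⟩) g
    have M0' : ∀ ω, P p (X a 0) g ω = 0 := M0 a ha
    simp only [M0', sub_zero] at z
    refine le_trans (hp.ex_mono fun ω => ?_) z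
    rw [mul_pow]
    refine mul_le_mul_of_nonneg_right ?_ (sq_nonneg _)
    nlinarith [H.e0 a ha ω, H.e1 a ha ω]
  have dec : ∑ a ∈ s, ex p (fun ω => φ a ω * g ω) =
      ∑ a ∈ s, ex p (fun ω => φ a ω * (e a ω * tr (ψ a) (M a) T ω)) +
      ∑ a ∈ s, ex p (fun ω => φ a ω * (e a ω * tr (fun t ω => 1 - ψ a t ω) (M a) T ω)) +
      ∑ a ∈ s, ex p (fun ω => φ a ω * (1 - e a ω) * M a T ω) := by
    rw [← sum_add_distrib, ← sum_add_distrib]
    refine sum_congr rfl fun a ha => ?_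
    rw [← ex_add, ← ex_add, ← ((eX a ha).stop T).ex_mul_P hp
      ((hφ a ha).mono fun _ => subset_union_left) g]
    congr 1; ext ω
    have := tr_add_tr (ψ a) (M a) T ω
    rw [M0 a ha, sub_zero] at this
    change φ a ω * M a T ω = _
    linear_combination (-(φ a ω * e a ω)) * this
  have s0 : ∀ u : α → (∀ i, E i) → ℝ, 0 ≤ ∑ a ∈ s, nsq p (u a) / ρ a := fun u =>
    sum_nonneg fun a ha => div_nonneg (hp.nsq_nn _) (H.pos a ha).le
  have c1 := (hp.cs_sum s H.pos φ _).trans (mul_le_mul_of_nonneg_left early (s0 φ))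
  have c2 := (hp.cs_sum s H.pos φ _).trans (mul_le_mul_of_nonneg_left late (s0 φ))
  have c3 := (hp.cs_sum s H.pos (fun a ω => φ a ω * (1 - e a ω)) _).trans
    (mul_le_mul_of_nonneg_left full (s0 _))
  rw [dec, cost]
  have t3 : ∀ x y z : ℝ, (x + y + z) ^ 2 ≤ 3 * (x ^ 2 + y ^ 2 + z ^ 2) := fun x y z => by
    nlinarith [sq_nonneg (x - y), sq_nonneg (x - z), sq_nonneg (y - z)]
  refine (t3 _ _ _).trans ?_
  nlinarith

lemma Pr.meas_Mu (hp : Pr p) {J : Finset ι} {b : Finset ι → ℝ} (hb : ∀ S, ¬ S ⊆ J → b S = 0)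
    (f : (∀ i, E i) → ℝ) : Meas (fun _ => J) (Mu p b f) := by
  have : Mu p b f = C p J (Mu p b f) := by
    rw [hp.C_Mu]; congr 1; ext S; by_cases k : S ⊆ J <;> simp [k, hb]
  rw [this]; exact (stop_const J).meas_P _

/-- spectral form. -/
theorem ZS.zs_Mu (hp : Pr p) (H : ZS p gr G s ρ Y T e q m m' N)
    (hφ : ∀ a ∈ s, Meas (Y a T) (φ a)) {t : ℝ} (t0 : 0 ≤ t) (t1 : t ≤ 1) (b : Finset ι → ℝ)
    (hb : ∀ S, ¬ S ⊆ pre gr G → b S = 0) (h : (∀ i, E i) → ℝ) :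
    (∑ a ∈ s, ex p fun ω => φ a ω * Mu p (fun S => (1 - (1 - t) ^ (S.image gr).card) * b S) h ω) ^ 2
      ≤ 3 * cost p s ρ e φ q m m' * ∑ S, t * (S.image gr).card * b S ^ 2 * nsq p (hf p S h) := by
  have hb' := pr_ber (ι := κ) t0 t1
  set B : (κ → Bool) → Finset ι → ℝ := fun β S =>
    (1 - if S.image gr ⊆ (rs β)ᶜ then 1 else 0) * b S
  have e1 : ∀ ω, Mu p (fun S => (1 - (1 - t) ^ (S.image gr).card) * b S) h ω =
      ∑ β, w (ber κ t) β * Mu p (B β) h ω := by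
    intro ω
    rw [Mu_sum]
    congr 1; ext S
    have : 1 - (1 - t) ^ (S.image gr).card =
        ex (ber κ t) fun β => 1 - if S.image gr ⊆ (rs β)ᶜ then 1 else 0 := by
      rw [ex_sub, hb'.ex_const, ex_disj]
    rw [this, ex, sum_mul]
    simp only [B, mul_assoc]
  have e2 : (∑ a ∈ s, ex p fun ω =>
      φ a ω * Mu p (fun S => (1 - (1 - t) ^ (S.image gr).card) * b S) h ω) =
      ex (ber κ t) fun β => ∑ a ∈ s, ex p fun ω => φ a ω * Mu p (B β) h ω := by
    rw [ex_sum]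
    refine sum_congr rfl fun a _ => ?_
    simp only [e1, mul_sum, ex_sum]
    refine sum_congr rfl fun β _ => ?_
    rw [← ex_mul]; congr 1; ext ω; ring
  have c0 := H.cost_nn hp (φ := φ)
  rw [e2]
  refine (hb'.sq_ex_le _).trans ((hb'.ex_mono (g := fun β => 3 * cost p s ρ e φ q m m' *
    ∑ S, b S ^ 2 * nsq p (hf p S h) * ((rs β ∩ S.image gr).card : ℝ)) fun β => ?_).trans
    (le_of_eq ?_))
  · refine (H.zs_U hp hφ (rs β) (hp.meas_Mu (fun S k => by simp [B, hb S k]) h) fun ω => ?_).trans ?_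
    · rw [hp.C_Mu]
      refine sum_eq_zero fun S _ => ?_
      by_cases k : S ⊆ pre gr (G \ rs β)
      · have : S.image gr ⊆ (rs β)ᶜ := (subset_pre.1 k).trans fun γ hγ =>
          mem_compl.2 (mem_sdiff.1 hγ).2
        simp only [B, this, if_true, sub_self, zero_mul, ite_self]
      · simp [k]
    · rw [hp.sum_nsq_DG]
      refine mul_le_mul_of_nonneg_left (sum_le_sum fun S _ => ?_) (by positivity)
      have := hp.nsq_nn (hf p S h)
      by_cases k : S.image gr ⊆ (rs β)ᶜ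
      · simp only [B, k, if_true, sub_self, zero_mul, mul_zero, ne_eq, OfNat.ofNat_ne_zero,
          not_false_eq_true, zero_pow]
        positivity
      · simp only [B, k, if_false, sub_zero, one_mul]
        exact le_of_eq (by ring)
  · rw [ex_mul, ex_sum]
    simp only [ex_mul, ex_card]
    congr 1
    exact sum_congr rfl fun _ _ => by ring

/-- **Zeno-Shearer lemma.** -/
theorem ZS.zs (hp : Pr p) (H : ZS p gr G s ρ Y T e q m m' N)
    (hφ : ∀ a ∈ s, Meas (Y a T) (φ a)) (hh : Meas (fun _ => pre gr G) h) :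
    (∑ a ∈ s, ex p fun ω => φ a ω * (h ω - ex p h)) ^ 2 ≤
      24 * (Nat.log 2 N + 1) * cost p s ρ e φ q m m' * var p h := by
  set d : Finset ι → ℕ := fun S => (S.image gr).card with hd
  set A : ℕ → Finset ι → ℝ := fun k S =>
    if S ≠ ∅ ∧ S ⊆ pre gr G ∧ Nat.log 2 (d S) = k then 1 else 0 with hA
  set K := Nat.log 2 N + 1 with hK
  have c0 := H.cost_nn hp (φ := φ)
  have eh : (fun ω => h ω - ex p h) =
      Mu p (fun S => if S ≠ ∅ ∧ S ⊆ pre gr G then 1 else 0) h := by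
    ext ω
    rw [← C_empty h ω, ← hh.P_eq hp ω, P_eq_C]
    conv_lhs => rw [hp.eq_Mu h, hp.C_Mu, hp.C_Mu, Mu_sub]
    congr 1; ext S
    by_cases k : S = ∅ <;> simp [k]
  have e1 : ∀ a ∈ s, ex p (fun ω => φ a ω * (h ω - ex p h)) =
      ∑ k ∈ range K, 1 * ex p fun ω => φ a ω * Mu p (A k) h ω := by
    intro a ha
    have st := (H.expl a ha).stop T
    simp only [one_mul, ← st.ex_mul_P hp (hφ a ha) (Mu p _ h), eh,
      ← st.ex_mul_P hp (hφ a ha) fun ω => h ω - ex p h]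
    rw [← ex_sum]
    congr 1; ext ω
    rw [← mul_sum]
    congr 1
    simp only [hp.P_Mu]
    rw [sum_congr rfl fun k _ => (one_mul _).symm, Mu_sum]
    congr 1; ext S
    by_cases k : S ⊆ Y a T ω
    · by_cases k' : S ≠ ∅ ∧ S ⊆ pre gr G
      · have : Nat.log 2 (d S) < K := Nat.lt_succ_of_le (Nat.log_mono_right ((card_le_card
          (subset_inter (image_subset_image k) (subset_pre.1 k'.2))).trans (H.card a ha ω)))
        simp [k, A, k'.1, k'.2, this]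
      · simp only [k, A, ← and_assoc, k', false_and, if_false, if_true, mul_zero, sum_const_zero]
    · simp [k]
  have blk : ∀ k, (∑ a ∈ s, ex p fun ω => φ a ω * Mu p (A k) h ω) ^ 2 ≤
      3 * cost p s ρ e φ q m m' * (8 * ∑ S, A k S * nsq p (hf p S h)) := by
    intro k
    have h1 : (1 : ℝ) ≤ 2 ^ k := one_le_pow₀ one_le_two
    have z := H.zs_Mu hp hφ (t := 1 / 2 ^ k) (by positivity)
      (by rw [div_le_one (by linarith)]; exact h1)
      (fun S => A k S / (1 - (1 - 1 / 2 ^ k) ^ d S)) (fun S k => by simp [A, k]) h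
    have u : ∀ S : Finset ι, S ≠ ∅ → Nat.log 2 (d S) = k →
        1 / 2 ≤ 1 - (1 - 1 / (2 : ℝ) ^ k) ^ d S := fun S h1 h2 => half_le (h2 ▸ Nat.pow_log_le_self
          2 (card_ne_zero.2 ((nonempty_iff_ne_empty.2 h1).image gr)))
    have e2 : (fun S : Finset ι => (1 - (1 - 1 / (2 : ℝ) ^ k) ^ (S.image gr).card) *
        (A k S / (1 - (1 - 1 / 2 ^ k) ^ d S))) = A k := by
      ext S
      by_cases hS : S ≠ ∅ ∧ S ⊆ pre gr G ∧ Nat.log 2 (d S) = k
      · have := u S hS.1 hS.2.2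
        rw [mul_div_cancel₀ _ (by linarith)]
      · simp only [A, hS, if_false, zero_div, mul_zero]
    rw [e2] at z
    refine z.trans (mul_le_mul_of_nonneg_left ?_ (by positivity))
    rw [mul_sum _ _ 8]
    refine sum_le_sum fun S _ => ?_
    rw [← mul_assoc]
    refine mul_le_mul_of_nonneg_right ?_ (hp.nsq_nn _)
    by_cases hS : S ≠ ∅ ∧ S ⊆ pre gr G ∧ Nat.log 2 (d S) = k
    · have h2 := u S hS.1 hS.2.2
      have h3 : (d S : ℝ) ≤ 2 * 2 ^ k := by
        have := Nat.lt_pow_succ_log_self one_lt_two (d S)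
        rw [hS.2.2, pow_succ, mul_comm] at this
        exact_mod_cast this.le
      have h4 : 1 / (2 : ℝ) ^ k * d S ≤ 2 := by
        rw [one_div_mul_eq_div, div_le_iff₀ (by linarith)]; exact h3
      have h5 : (1 / (1 - (1 - 1 / (2 : ℝ) ^ k) ^ d S)) ^ 2 ≤ 2 ^ 2 := by
        gcongr; rw [div_le_iff₀ (by linarith)]; linarith
      simp only [A, hS, ne_eq, not_false_eq_true, and_self, if_true]
      calc _ ≤ (2 : ℝ) * 2 ^ 2 := by gcongr
        _ = _ := by norm_num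
    · simp only [A, hS, if_false, zero_div]; simp
  rw [sum_congr rfl e1, sum_comm]
  simp only [one_mul]
  refine sq_sum_le_card_mul_sum_sq.trans ?_
  rw [card_range]
  calc _ ≤ (K : ℝ) * ∑ k ∈ range K, 3 * cost p s ρ e φ q m m' *
        (8 * ∑ S, A k S * nsq p (hf p S h)) := by gcongr with k; exact blk k
    _ ≤ K * (3 * cost p s ρ e φ q m m' * (8 * var p h)) := by
        rw [← mul_sum, ← mul_sum, sum_comm, hp.var_eq]
        gcongr with S
        rw [← sum_mul]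
        refine mul_le_mul_of_nonneg_right ?_ (hp.nsq_nn _)
        by_cases k : S = ∅
        · simp [A, k]
        · by_cases k' : S ⊆ pre gr G
          · simp only [A, k, k', ne_eq, not_false_eq_true, true_and, sum_ite_eq, if_false]
            split_ifs <;> simp
          · simp [A, k, k']
    _ = _ := by rw [hK]; push_cast; ring

end Crest.Agent.N337.PH
end

-- ▼ part N337/L4/Gram

/-!
# Row 337, L4: grouped Shearer inequality and the abstract Gram lemma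

`Sh`: explorers of FINE cells whose multiplicity and size are counted in groups.
`Gm.gram`: `Cov (∑ ψ a, Ψ)` is the diagonal `∑ E[ψ a * D a]` up to the early part (Lemma Z and
Shearer), the diagonal error, and the terms `O a` that touch the zone `Z a` of the late steps.
-/

set_option autoImplicit false
set_option linter.unusedSectionVars false

namespace Crest.Agent.N337.PH

open Finset L4

variable {ι : Type} [Fintype ι] [DecidableEq ι] {E : ι → Type} [∀ i, Fintype (E i)]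
  {κ : Type} [Fintype κ] [DecidableEq κ] {α : Type}

/-- explorers of fine cells, counted in groups. -/
structure Sh (gr : ι → κ) (s : Finset α) (ρ : α → ℝ) (Y : α → ℕ → (∀ i, E i) → Finset ι) (T : ℕ)
    (m : ℝ) (N : ℕ) : Prop where
  expl : ∀ a ∈ s, Expl (Y a)
  zero : ∀ a ∈ s, ∀ ω, Y a 0 ω = ∅
  pos : ∀ a ∈ s, 0 < ρ a
  m0 : 0 ≤ m
  mult : ∀ ω γ, ∑ a ∈ s, (if γ ∈ (Y a T ω).image gr then ρ a else 0) ≤ m
  card : ∀ a ∈ s, ∀ ω, ((Y a T ω).image gr).card ≤ N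

variable {p : ∀ i, E i → ℝ} {gr : ι → κ} {s : Finset α} {ρ : α → ℝ}
  {Y : α → ℕ → (∀ i, E i) → Finset ι} {T : ℕ} {e φ ψ : α → (∀ i, E i) → ℝ} {q m : ℝ} {N : ℕ}
  {X : ℕ → (∀ i, E i) → Finset ι} {f g : (∀ i, E i) → ℝ}

lemma subset_pre_image (A : Finset ι) : A ⊆ pre gr (A.image gr) := subset_pre.2 subset_rfl

lemma Expl.clo (h : Expl X) (gr : ι → κ) : Expl fun t ω => pre gr ((X t ω).image gr) :=
  ⟨fun ω ω' => by rw [h.zero ω ω'], fun t ω _ hi =>
    mem_pre.2 (image_subset_image (h.mono t ω) (mem_pre.1 hi)),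
    fun t ω ω' k => by rw [h.pred t ω ω' fun i hi => k i (subset_pre_image _ hi)]⟩

lemma mt_pre (U G : Finset κ) : mt gr G (pre gr U) ⊆ U := fun γ hγ => by
  obtain ⟨⟨i, hi, rfl⟩, -⟩ := mem_mt.1 hγ
  exact mem_pre.1 hi

lemma Sh.zs (hp : Pr p) (H : Sh gr s ρ Y T m N) : ZS p gr univ s ρ
    (fun a t ω => pre gr ((Y a t ω).image gr)) T (fun _ _ => 0) (1 / 64) m 0 N where
  expl a ha := (H.expl a ha).clo gr
  zero a ha ω := by simp [H.zero a ha, pre]
  cl _ _ _ _ := cl_pre _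
  pos := H.pos
  e0 _ _ _ := le_rfl
  e1 _ _ _ := zero_le_one
  q0 := by norm_num
  m0 := H.m0
  m0' := le_rfl
  mult ω γ _ := le_trans (sum_le_sum fun a ha => by
    have := (H.pos a ha).le
    by_cases k : γ ∈ (Y a T ω).image gr
    · rw [if_pos k]; split_ifs <;> simp [this]
    · rw [if_neg k, if_neg fun k' => k (mt_pre _ _ k')]) (H.mult ω γ)
  card a ha ω := (card_le_card (mt_pre _ _)).trans (H.card a ha ω)
  split := ⟨fun _ _ _ => True, fun _ _ => ∅, fun _ _ _ _ _ _ _ => Iff.rfl,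
    fun _ _ _ _ _ _ => by simp [hp.P_const], fun _ _ _ _ _ k => (k trivial).elim, by simp⟩

/-- **grouped Shearer inequality**, bilinear form. -/
theorem Sh.cov (hp : Pr p) (H : Sh gr s ρ Y T m N) (hφ : ∀ a ∈ s, Meas (Y a T) (φ a))
    (g : (∀ i, E i) → ℝ) : (∑ a ∈ s, ex p fun ω => φ a ω * (g ω - ex p g)) ^ 2 ≤
      48 * m * (Nat.log 2 N + 1) * (∑ a ∈ s, nsq p (φ a) / ρ a) * var p g := by
  have k := (H.zs hp).zs hp (φ := φ) (h := g)
    (fun a ha => (hφ a ha).mono fun _ => subset_pre_image _)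
    fun ω ω' b => by rw [funext fun i => b i (by simp)]
  simp only [cost, sub_zero, mul_one] at k
  exact k.trans (le_of_eq (by ring))

lemma le_of_sq_le_mul {x c : ℝ} (hc : 0 ≤ c) (h : x ^ 2 ≤ c * x) : x ≤ c := by
  by_contra k
  nlinarith

lemma Pr.var_nn (hp : Pr p) (g : (∀ i, E i) → ℝ) : 0 ≤ var p g := hp.nsq_nn _

lemma Pr.var_le (hp : Pr p) (g : (∀ i, E i) → ℝ) : var p g ≤ nsq p g := by
  have k := (stop_const (E := E) ∅).nsq_split hp g
  have z : ∀ ω, P p (fun _ => ∅) g ω = ex p g := fun ω => P_empty g ω rfl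
  simp only [z] at k
  rw [k]; exact le_add_of_nonneg_left (hp.nsq_nn _)

/-- **grouped Shearer inequality.** -/
theorem Sh.shearer (hp : Pr p) (H : Sh gr s ρ Y T m N) (g : (∀ i, E i) → ℝ) :
    ∑ a ∈ s, ρ a * nsq p (fun ω => P p (Y a T) g ω - ex p g) ≤
      48 * m * (Nat.log 2 N + 1) * var p g := by
  have hm : ∀ a ∈ s, Meas (Y a T) fun ω => ρ a * (P p (Y a T) g ω - ex p g) := fun a ha =>
    (meas_const _).mul ((((H.expl a ha).stop T).meas_P g).sub (meas_const _))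
  have k := H.cov hp hm g
  have e1 : ∀ a ∈ s, (ex p fun ω => ρ a * (P p (Y a T) g ω - ex p g) * (g ω - ex p g)) =
      ρ a * nsq p fun ω => P p (Y a T) g ω - ex p g := fun a ha => by
    rw [← ((H.expl a ha).stop T).ex_mul_P hp (hm a ha), nsq, ← ex_mul]
    congr 1; ext ω
    rw [P_sub, hp.P_const]; ring
  have e2 : ∀ a ∈ s, nsq p (fun ω => ρ a * (P p (Y a T) g ω - ex p g)) / ρ a =
      ρ a * nsq p fun ω => P p (Y a T) g ω - ex p g := fun a ha => by
    have := (H.pos a ha).ne'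
    simp only [nsq, mul_pow, ex_mul]
    field_simp
  rw [sum_congr rfl e1, sum_congr rfl e2] at k
  have := H.m0; have := hp.var_nn g
  exact le_of_sq_le_mul (by positivity) (k.trans (le_of_eq (by ring)))

/-- **grouped Shearer inequality**, dual form: the variance of a sum of explored functions. -/
theorem Sh.dual (hp : Pr p) (H : Sh gr s ρ Y T m N) (hφ : ∀ a ∈ s, Meas (Y a T) (φ a)) :
    var p (fun ω => ∑ a ∈ s, φ a ω) ≤ 48 * m * (Nat.log 2 N + 1) * ∑ a ∈ s, nsq p (φ a) / ρ a := by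
  set g : (∀ i, E i) → ℝ := fun ω => ∑ a ∈ s, φ a ω with hg
  have k := H.cov hp hφ g
  have e1 : (∑ a ∈ s, ex p fun ω => φ a ω * (g ω - ex p g)) = var p g := by
    rw [← ex_sum, var, nsq]
    have : (fun ω => (g ω - ex p g) ^ 2) = fun ω =>
        ∑ a ∈ s, φ a ω * (g ω - ex p g) - ex p g * (g ω - ex p g) := by
      ext ω; rw [← sum_mul]; ring
    rw [this, ex_sub, ex_mul, ex_sub, hp.ex_const]; ring
  rw [e1] at k
  have := H.m0
  have := sum_nonneg fun a ha => div_nonneg (hp.nsq_nn (φ a)) (H.pos a ha).le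
  exact le_of_sq_le_mul (by positivity) k

variable {χ : ℕ → (∀ i, E i) → ℝ}

lemma Expl.ex_tr_mul (hp : Pr p) (h : Expl X) (hχ : ∀ t, t < T → Meas (X t) (χ t))
    (f g : (∀ i, E i) → ℝ) : ex p (fun ω => tr χ (fun t => P p (X t) f) T ω * g ω) =
      ∑ t ∈ range T, ex p fun ω => χ t ω *
        ((P p (X (t + 1)) f ω - P p (X t) f ω) * (P p (X (t + 1)) g ω - P p (X t) g ω)) := by
  have c := ((h.mart hp T f).tr h.filt fun t ht => ms_iff.2 (hχ t ht)).cov (h.mart hp T g)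
  rw [← (h.stop T).ex_mul_P hp (h.meas_tr hp hχ f) g]
  refine Eq.trans c ?_
  simp only [tr, range_zero, sum_empty, zero_mul, sum_range_succ, add_sub_cancel_left]
  rw [show Ex (w p) (fun _ : ∀ i, E i => (0 : ℝ)) = 0 by simp [Ex], zero_add]
  refine sum_congr rfl fun t _ => ?_
  change ex p _ = _
  congr 1; ext ω; ring

/-- a transform can be moved to the other factor. -/
lemma Expl.tr_swap (hp : Pr p) (h : Expl X) (hχ : ∀ t, t < T → Meas (X t) (χ t))
    (f g : (∀ i, E i) → ℝ) : ex p (fun ω => f ω * tr χ (fun t => P p (X t) g) T ω) =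
      ex p fun ω => tr χ (fun t => P p (X t) f) T ω * g ω := by
  simp only [mul_comm (f _)]
  rw [h.ex_tr_mul hp hχ, h.ex_tr_mul hp hχ]
  simp only [mul_comm (P p (X _) g _ - _)]

/-- steps inside `Z` are neutral for functions of the cells off `Z`. -/
lemma Expl.ex_tr_off (hp : Pr p) (h : Expl X) (hχ : ∀ t, t < T → Meas (X t) (χ t)) {Z : Finset ι}
    (hZ : ∀ t, t < T → ∀ ω, χ t ω ≠ 0 → X (t + 1) ω \ X t ω ⊆ Z) (hg : Meas (fun _ => Zᶜ) g)
    (f : (∀ i, E i) → ℝ) : ex p (fun ω => tr χ (fun t => P p (X t) f) T ω * g ω) = 0 := by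
  rw [h.ex_tr_mul hp hχ]
  refine sum_eq_zero fun t ht => ?_
  rw [← hp.ex_const 0]
  congr 1; ext ω
  by_cases z : χ t ω = 0
  · rw [z, zero_mul]
  have : X (t + 1) ω ∩ Zᶜ = X t ω ∩ Zᶜ := by
    ext i
    have a := @hZ t (mem_range.1 ht) ω z i
    have b := @h.mono t ω i
    simp only [mem_inter, mem_compl, mem_sdiff] at a ⊢
    tauto
  rw [P_eq_C (f := g), P_eq_C (f := g), hg.C_inter hp, hg.C_inter hp (X t ω), this]; ring

/-- hypotheses of the Gram lemma: `θ` marks the early steps, the late steps stay in `Z a`; after a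
late step `Ψ` splits into a function `V a` of the cells off `Z a`, the own term `D a` and `O a`. -/
structure Gm (p : ∀ i, E i → ℝ) (s : Finset α) (Y : α → ℕ → (∀ i, E i) → Finset ι) (T : ℕ)
    (e ψ D O : α → (∀ i, E i) → ℝ) (Ψ : (∀ i, E i) → ℝ) (q : ℝ) : Prop where
  q0 : 0 < q
  e0 : ∀ a ∈ s, ∀ ω, 0 ≤ e a ω
  e1 : ∀ a ∈ s, ∀ ω, e a ω ≤ 1
  eq : ∀ a ∈ s, ex p (e a) ≤ q
  meas : ∀ a ∈ s, Meas (Y a T) (ψ a)
  ψe : ∀ a ∈ s, ∀ ω, ψ a ω * e a ω = ψ a ω
  De : ∀ a ∈ s, ∀ ω, D a ω * e a ω = D a ω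
  split : ∃ (θ : α → ℕ → (∀ i, E i) → Prop) (Z : α → Finset ι) (V : α → (∀ i, E i) → ℝ),
    (∀ a ∈ s, ∀ t, t < T → ∀ ω ω', (∀ i ∈ Y a t ω, ω' i = ω i) → (θ a t ω' ↔ θ a t ω)) ∧
    (∀ a ∈ s, ∀ t, t < T → ∀ ω, θ a t ω →
      P p (Y a t) (e a) ω ≤ q ∧ P p (Y a (t + 1)) (e a) ω ≤ q) ∧
    (∀ a ∈ s, ∀ t, t < T → ∀ ω, ¬ θ a t ω → Y a (t + 1) ω \ Y a t ω ⊆ Z a) ∧
    (∀ a ∈ s, Meas (fun _ => (Z a)ᶜ) (V a)) ∧
    ∀ a ∈ s, ∀ t, t < T → ∀ ω, ¬ θ a t ω → Ψ ω = V a ω + D a ω + O a ω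

/-- **Gram lemma.** -/
theorem Gm.gram {D O : α → (∀ i, E i) → ℝ} {Ψ : (∀ i, E i) → ℝ} (hp : Pr p)
    (H : Sh gr s ρ Y T m N) (K : Gm p s Y T e ψ D O Ψ q) :
    ((∑ a ∈ s, ex p fun ω => ψ a ω * (Ψ ω - ex p Ψ)) - ∑ a ∈ s, ex p fun ω => ψ a ω * D a ω) ^ 2 ≤
      3 * (∑ a ∈ s, nsq p (ψ a) / ρ a) * (3072 * q * m * (Nat.log 2 N + 1) * var p Ψ +
        130 * q * ∑ a ∈ s, ρ a * nsq p (D a) + ∑ a ∈ s, ρ a * nsq p (O a)) := by
  classical
  obtain ⟨θ, Z, V, hθ, hq, hZ, hV, hd⟩ := K.split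
  have q0 := K.q0
  set c : α → ℕ → (∀ i, E i) → ℝ := fun a t ω => if θ a t ω then 1 else 0 with hc
  have mc : ∀ a ∈ s, ∀ t, t < T → Meas (Y a t) (c a t) := fun a ha t ht ω ω' k => by
    simp only [c, hθ a ha t ht ω ω' k]
  have mc' : ∀ a ∈ s, ∀ t, t < T → Meas (Y a t) fun ω => 1 - c a t ω := fun a ha t ht =>
    (meas_const 1).sub (mc a ha t ht)
  have P0 : ∀ a ∈ s, ∀ f ω, P p (Y a 0) f ω = ex p f := fun a ha f ω => P_empty f ω (H.zero a ha ω)
  set er : α → ((∀ i, E i) → ℝ) → (∀ i, E i) → ℝ := fun a f =>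
    tr (c a) (fun t => P p (Y a t) f) T with her
  set la : α → ((∀ i, E i) → ℝ) → (∀ i, E i) → ℝ := fun a f =>
    tr (fun t ω => 1 - c a t ω) (fun t => P p (Y a t) f) T with hla
  have sp : ∀ a ∈ s, ∀ f ω, er a f ω + la a f ω = P p (Y a T) f ω - ex p f := fun a ha f ω => by
    rw [← P0 a ha f ω]; exact tr_add_tr _ _ _ _
  have zn : ∀ a ∈ s, ∀ f, ex p (fun ω => e a ω * er a f ω ^ 2) ≤
      64 * q * nsq p fun ω => P p (Y a T) f ω - ex p f := fun a ha f => by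
    have z := (H.expl a ha).zeno hp q0 (K.e0 a ha) (mc a ha)
      (fun t ω => by simp only [c]; split_ifs <;> simp)
      (fun t ht ω z => hq a ha t ht ω (by by_contra k; simp [c, k] at z)) f
    simpa only [P0 a ha] using z
  have esq : ∀ a ∈ s, ∀ u : (∀ i, E i) → ℝ, nsq p (fun ω => e a ω * u ω) ≤
      ex p fun ω => e a ω * u ω ^ 2 := fun a ha u => hp.ex_mono fun ω => by
    rw [mul_pow]
    refine mul_le_mul_of_nonneg_right ?_ (sq_nonneg _)
    nlinarith [K.e0 a ha ω, K.e1 a ha ω]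
  have Pψ : ∀ a ∈ s, nsq p (fun ω => P p (Y a T) (ψ a) ω - ex p (ψ a)) ≤ nsq p (ψ a) :=
    fun a ha => by simpa only [(K.meas a ha).P_eq hp, var] using hp.var_le (ψ a)
  have dec : ((∑ a ∈ s, ex p fun ω => ψ a ω * (Ψ ω - ex p Ψ)) -
      ∑ a ∈ s, ex p fun ω => ψ a ω * D a ω) =
      ∑ a ∈ s, ex p (fun ω => ψ a ω * (e a ω * er a Ψ ω)) -
      ∑ a ∈ s, ex p (fun ω => e a ω * (ex p (ψ a) + er a (ψ a) ω) * D a ω) +
      ∑ a ∈ s, ex p (fun ω => la a (ψ a) ω * O a ω) := by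
    rw [← sum_sub_distrib, ← sum_sub_distrib, ← sum_add_distrib]
    refine sum_congr rfl fun a ha => ?_
    have a1 : ex p (fun ω => ψ a ω * (Ψ ω - ex p Ψ)) =
        ex p (fun ω => ψ a ω * (e a ω * er a Ψ ω)) + ex p fun ω => ψ a ω * la a Ψ ω := by
      rw [← ex_add, ← ((H.expl a ha).stop T).ex_mul_P hp (K.meas a ha)]
      congr 1; ext ω
      rw [P_sub, hp.P_const, ← sp a ha, ← mul_assoc, K.ψe a ha]; ring
    have a2 : ex p (fun ω => ψ a ω * la a Ψ ω) = ex p fun ω => la a (ψ a) ω * Ψ ω :=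
      (H.expl a ha).tr_swap hp (mc' a ha) _ _
    have a3 : ex p (fun ω => la a (ψ a) ω * V a ω) = 0 := (H.expl a ha).ex_tr_off hp (mc' a ha)
      (fun t ht ω z => hZ a ha t ht ω fun k => z (by simp [c, k])) (hV a ha) _
    have a4 : (fun ω => la a (ψ a) ω * Ψ ω) = fun ω => la a (ψ a) ω * V a ω +
        (ψ a ω * D a ω - e a ω * (ex p (ψ a) + er a (ψ a) ω) * D a ω) + la a (ψ a) ω * O a ω := by
      ext ω
      have b1 := sp a ha (ψ a) ω
      rw [(K.meas a ha).P_eq hp] at b1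
      have b2 := K.De a ha ω
      have b3 : la a (ψ a) ω * Ψ ω = la a (ψ a) ω * (V a ω + D a ω + O a ω) := by
        by_cases k : ∀ t, t < T → θ a t ω
        · have : la a (ψ a) ω = 0 := sum_eq_zero fun t ht => by simp [c, k t (mem_range.1 ht)]
          simp [this]
        · push Not at k
          obtain ⟨t, ht, k⟩ := k
          rw [hd a ha t ht ω k]
      rw [b3]
      linear_combination D a ω * b1 + (ex p (ψ a) + er a (ψ a) ω) * b2
    rw [a1, a2, a4, ex_add, ex_add, ex_sub, a3]; ring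
  set Φ := ∑ a ∈ s, nsq p (ψ a) / ρ a with hΦ
  have Φ0 : 0 ≤ Φ := sum_nonneg fun a ha => div_nonneg (hp.nsq_nn _) (H.pos a ha).le
  have s0 : ∀ u : α → (∀ i, E i) → ℝ, 0 ≤ ∑ a ∈ s, ρ a * nsq p (u a) := fun u =>
    sum_nonneg fun a ha => mul_nonneg (H.pos a ha).le (hp.nsq_nn _)
  have c1 : (∑ a ∈ s, ex p fun ω => ψ a ω * (e a ω * er a Ψ ω)) ^ 2 ≤
      Φ * (64 * q * (48 * m * (Nat.log 2 N + 1) * var p Ψ)) := by
    refine (hp.cs_sum s H.pos ψ _).trans (mul_le_mul_of_nonneg_left ?_ Φ0)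
    refine le_trans ?_ (mul_le_mul_of_nonneg_left (H.shearer hp Ψ) (by positivity))
    rw [mul_sum]
    refine sum_le_sum fun a ha => ?_
    rw [mul_left_comm]
    exact mul_le_mul_of_nonneg_left ((esq a ha _).trans (zn a ha Ψ)) (H.pos a ha).le
  have c2 : (∑ a ∈ s, ex p fun ω => e a ω * (ex p (ψ a) + er a (ψ a) ω) * D a ω) ^ 2 ≤
      130 * q * Φ * ∑ a ∈ s, ρ a * nsq p (D a) := by
    refine (hp.cs_sum s H.pos _ D).trans (mul_le_mul_of_nonneg_right ?_ (s0 D))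
    rw [hΦ, mul_sum]
    refine sum_le_sum fun a ha => ?_
    rw [← mul_div_assoc]
    refine div_le_div_of_nonneg_right ((esq a ha _).trans ?_) (H.pos a ha).le
    refine (hp.ex_mono (g := fun ω => 2 * ex p (ψ a) ^ 2 * e a ω +
      2 * (e a ω * er a (ψ a) ω ^ 2)) fun ω => ?_).trans ?_
    · nlinarith [mul_nonneg (K.e0 a ha ω) (sq_nonneg (ex p (ψ a) - er a (ψ a) ω))]
    · rw [ex_add, ex_mul, ex_mul]
      have b1 := (zn a ha (ψ a)).trans (mul_le_mul_of_nonneg_left (Pψ a ha) (by positivity))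
      have b2 := mul_le_mul (hp.sq_ex_le (ψ a)) (K.eq a ha) (hp.ex_nn (K.e0 a ha)) (hp.nsq_nn _)
      nlinarith
  have c3 : (∑ a ∈ s, ex p fun ω => la a (ψ a) ω * O a ω) ^ 2 ≤ Φ * ∑ a ∈ s, ρ a * nsq p (O a) := by
    refine (hp.cs_sum s H.pos _ O).trans (mul_le_mul_of_nonneg_right ?_ (s0 O))
    refine sum_le_sum fun a ha => div_le_div_of_nonneg_right (le_trans ?_ (Pψ a ha)) (H.pos a ha).le
    have z := tr_sq_le hp.w_nn (H.expl a ha).filt ((H.expl a ha).mart hp T (ψ a))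
      (fun t ht => ms_iff.2 (mc' a ha t ht)) fun t ω => by simp only [c]; split_ifs <;> simp
    simp only [P0 a ha] at z
    exact z
  rw [dec]
  have t3 : ∀ x y z : ℝ, (x - y + z) ^ 2 ≤ 3 * (x ^ 2 + y ^ 2 + z ^ 2) := fun x y z => by
    nlinarith [sq_nonneg (x + y), sq_nonneg (x - z), sq_nonneg (y + z)]
  refine (t3 _ _ _).trans ?_
  nlinarith

end Crest.Agent.N337.PH
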